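import Vale.Agent.P166.TwoAtom.Proj

/-!
The two-atom formula from the spherical limits.
-/

noncomputable section

open MeasureTheory ProbabilityTheory Matrix Filter Set
open scoped BigOperators Topology BoundedContinuousFunction

namespace Vale.Agent.P166.TwoAtom

open Vale.Agent.P157 (patterns)
open Vale.Agent.P157.Parisi.Full (logCosh)

variable {N n : ℕ}

theorem projP_phi {θ κ : ℝ} (hθ : 0 < θ) (hκ : 0 < κ) (hn : 0 < n) {g : Fin N → Fin n → ℝ}
    (hg : Below κ g) : projP θ g = (n : ℝ) / N * (Phi θ logCosh g - Phi θ 0 g) := by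
  have hS : 0 < ∑ s : Fin N → Bool, Real.exp (θ / 2 * pform g (spin s)) :=
    Finset.sum_pos (fun s _ => Real.exp_pos _) Finset.univ_nonempty
  have hn' : (n : ℝ) ≠ 0 := by exact_mod_cast hn.ne'
  rw [projP, ← Real.log_div hS.ne' (by positivity), div_eq_inv_mul (_ : ℝ) ((2 : ℝ) ^ N),
    exchange hθ hκ hg, Real.log_div (wInt_pos hθ hκ isLink_logCosh hg).ne'
      (wInt_pos hθ hκ isLink_zero hg).ne', Phi, Phi, ← sub_div, div_mul_div_comm, mul_comm (N : ℝ),
    mul_div_mul_left _ _ hn']
  ring

theorem mean_tendsto (hS : SphereStmt) (hC : ContStmt) {p θ : ℝ} (hp : 0 < p) (hp1 : p < 1)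
    (hθ : 0 < θ) :
    Tendsto (fun N : ℕ => meanP θ (lam2 N ⌊p * N⌋₊ 0 1)) atTop
      (𝓝 (p * (radial p⁻¹ θ logCosh - radial p⁻¹ θ 0))) := by
  set V := radial p⁻¹ θ logCosh
  set V0 := radial p⁻¹ θ 0
  set ℓ := p * (V - V0)
  set m := fun N : ℕ => meanP θ (lam2 N ⌊p * N⌋₊ 0 1)
  have hA : Tendsto (fun N : ℕ => ∫ g, |projP θ g - ℓ| ∂patterns N ⌊p * N⌋₊) atTop (𝓝 0) := by
    refine tendsto_order.2 ⟨fun b hb => Eventually.of_forall fun N =>
      hb.trans_le (integral_nonneg fun g => abs_nonneg _), fun b hb => ?_⟩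
    set δ := b / (4 * (1 + p))
    have hδ : 0 < δ := by positivity
    set bad := fun N : ℕ =>
      ({g | ¬Below (kap p * N) g ∨ δ < |Phi θ logCosh g - V|} : Set (Fin N → Fin ⌊p * N⌋₊ → ℝ)) ∪
        {g | ¬Below (kap p * N) g ∨ δ < |Phi θ 0 g - V0|}
    have hbad : Tendsto (fun N : ℕ => (patterns N ⌊p * N⌋₊).real (bad N)) atTop (𝓝 0) := by
      refine squeeze_zero (fun N => measureReal_nonneg) (fun N => ?_)
        (by
          simpa using (radial_prob hS hC hp hp1 hθ isLink_logCosh hδ).add
            (radial_prob hS hC hp hp1 hθ isLink_zero hδ))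
      exact measureReal_union_le _ _
    have hr : Tendsto (fun N : ℕ => (⌊p * N⌋₊ : ℝ) / N) atTop (𝓝 p) :=
      NW.Spec.tendsto_floor_ratio hp.le
    have hr' : Tendsto (fun N : ℕ => |(⌊p * N⌋₊ : ℝ) / N - p| * (|V - V0| + 2 * δ)) atTop (𝓝 0) := by
      simpa using ((hr.sub_const p).abs.mul_const (|V - V0| + 2 * δ))
    have hC0 : 0 < θ / 2 + |ℓ| + 1 := by positivity
    filter_upwards [floor_facts hp, hbad.eventually (gt_mem_nhds (div_pos (by linarith : 0 < b / 4) hC0)),
      hr'.eventually (gt_mem_nhds (by linarith : 0 < b / 4))] with N hf hbN hrN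
    have := prob_patterns N ⌊p * N⌋₊
    set Bd := toMeasurable (patterns N ⌊p * N⌋₊) (bad N)
    have hBm : MeasurableSet Bd := measurableSet_toMeasurable _ _
    have hBreal : (patterns N ⌊p * N⌋₊).real Bd = (patterns N ⌊p * N⌋₊).real (bad N) := by
      simp only [measureReal_def, Bd, measure_toMeasurable]
    refine lt_of_le_of_lt (integral_mono ((integrable_projP hθ.le).sub (integrable_const ℓ)).abs
      ((integrable_const (b / 4 + b / 4)).add
        ((integrable_const (θ / 2 + |ℓ| + 1)).indicator hBm)) fun g => ?_) ?_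
    · simp only [Pi.add_apply]
      by_cases hgB : g ∈ Bd
      · rw [indicator_of_mem hgB]
        have h2 := projP_bounds hθ.le g
        have : |projP θ g - ℓ| ≤ θ / 2 + |ℓ| :=
          (abs_sub _ _).trans (add_le_add ((abs_of_nonneg h2.1).le.trans h2.2) le_rfl)
        linarith
      · rw [indicator_of_notMem hgB]
        have hg : g ∉ bad N := fun h => hgB (subset_toMeasurable _ _ h)
        simp only [bad, Set.mem_union, Set.mem_ofPred_eq, not_or, not_not, not_lt] at hg
        obtain ⟨⟨hB, h1⟩, -, h2⟩ := hg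
        rw [projP_phi hθ (ratio_facts hp hp1 hf).2 hf.1 hB]
        set x := Phi θ logCosh g - Phi θ 0 g
        set r := (⌊p * N⌋₊ : ℝ) / N
        have hx : |x - (V - V0)| ≤ 2 * δ := by
          have := abs_sub (Phi θ logCosh g - V) (Phi θ 0 g - V0)
          simp only [x]
          rw [show Phi θ logCosh g - Phi θ 0 g - (V - V0) =
            Phi θ logCosh g - V - (Phi θ 0 g - V0) by ring]
          linarith
        have hxb : |x| ≤ |V - V0| + 2 * δ := by
          have := abs_sub_abs_le_abs_sub x (V - V0)
          linarith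
        have e : r * x - ℓ = (r - p) * x + p * (x - (V - V0)) := by simp only [ℓ]; ring
        rw [e, add_zero]
        refine (abs_add_le _ _).trans (add_le_add ?_ ?_)
        · rw [abs_mul]
          exact (mul_le_mul_of_nonneg_left hxb (abs_nonneg _)).trans hrN.le
        · rw [abs_mul, abs_of_pos hp]
          refine (mul_le_mul_of_nonneg_left hx hp.le).trans ?_
          simp only [δ]
          rw [← mul_assoc, ← mul_div_assoc, div_le_iff₀ (by positivity)]
          nlinarith
    · simp only [Pi.add_apply]
      rw [integral_add (integrable_const _) ((integrable_const _).indicator hBm), integral_const,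
        probReal_univ, one_smul, integral_indicator hBm, setIntegral_const, smul_eq_mul, hBreal]
      have := (lt_div_iff₀ hC0).1 hbN
      linarith
  have hE : Tendsto (fun N : ℕ => ∫ g, projP θ g ∂patterns N ⌊p * N⌋₊) atTop (𝓝 ℓ) := by
    refine tendsto_iff_norm_sub_tendsto_zero.2 (squeeze_zero (fun N => norm_nonneg _) (fun N => ?_) hA)
    have := prob_patterns N ⌊p * N⌋₊
    rw [show ℓ = ∫ _g : Fin N → Fin ⌊p * N⌋₊ → ℝ, ℓ ∂patterns N ⌊p * N⌋₊ by simp,
      ← integral_sub (integrable_projP hθ.le) (integrable_const _)]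
    simpa using norm_integral_le_integral_norm (μ := patterns N ⌊p * N⌋₊) fun g => projP θ g - ℓ
  have hd : Tendsto (fun N : ℕ => ∫ g, projP θ g ∂patterns N ⌊p * N⌋₊ - m N) atTop (𝓝 0) := by
    have hb : ∀ N, |m N| ≤ θ := fun N => by
      rcases Nat.eq_zero_or_pos N with rfl | hN
      · simp [m, meanP, pressure]; linarith
      · have := NW.Spec.meanP_abs_le hθ.le hN (lam := lam2 N ⌊p * N⌋₊ 0 1) (C := 1)
          fun i => by simp only [lam2]; split_ifs <;> norm_num
        simp only [m]
        linarith
    refine squeeze_zero_norm' ?_ (by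
      simpa using (below_prob hp hp1).const_mul (θ / 2 + θ))
    filter_upwards [floor_facts hp] with N hf
    exact (mean_projP hθ.le (ratio_facts hp hp1 hf).2).trans
      (mul_le_mul_of_nonneg_right (add_le_add le_rfl (hb N)) measureReal_nonneg)
  simpa using hE.sub hd

/-- An affine change of the two values. -/
theorem meanP_affine (β a b : ℝ) (hN : 0 < N) :
    meanP β (lam2 N n a b) = β * a / 2 + meanP (β * (b - a)) (lam2 N n 0 1) := by
  have key : ∀ U, pressure β (lam2 N n a b) U =
      β * a / 2 + pressure (β * (b - a)) (lam2 N n 0 1) U := by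
    intro U
    have he : ∀ s, β / 2 * en (lam2 N n a b) U s =
        β / 2 * a * N + β * (b - a) / 2 * en (lam2 N n 0 1) U s := by
      intro s
      have h : ∑ i, act U (spin s) i ^ 2 = (N : ℝ) := by
        rw [← spin_dot s, ← act_dot U]
        simp [dotProduct, sq]
      rw [en_eq, en_eq, ← h]
      simp only [lam2, Finset.mul_sum, ← Finset.sum_add_distrib]
      exact Finset.sum_congr rfl fun i _ => by split_ifs <;> ring
    have hNr : (N : ℝ) ≠ 0 := by exact_mod_cast hN.ne'
    rw [pressure_eq, pressure_eq, part, part]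
    simp only [he, Real.exp_add, ← Finset.mul_sum]
    rw [Real.log_mul (Real.exp_pos _).ne' (Finset.sum_pos (fun s _ => Real.exp_pos _)
      Finset.univ_nonempty).ne', Real.log_exp]
    field_simp
    ring
  simp only [meanP, key]
  rw [integral_add (integrable_const _) (integrable_cont (continuous_pressure _ _))]
  simp

theorem support_two {a b p : ℝ} (hp : 0 < p) (hp1 : p < 1) :
    (ENNReal.ofReal (1 - p) • Measure.dirac a + ENNReal.ofReal p • Measure.dirac b).support =
      {a, b} := by
  set μ := ENNReal.ofReal (1 - p) • Measure.dirac a + ENNReal.ofReal p • Measure.dirac b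
  refine Set.Subset.antisymm ?_ ?_
  · intro x hx
    by_contra hxab
    rw [Measure.mem_support_iff_forall] at hx
    have hn : ({a, b} : Set ℝ)ᶜ ∈ 𝓝 x := (Set.toFinite _).isClosed.isOpen_compl.mem_nhds hxab
    have := hx _ hn
    simp [μ] at this
  · intro x hx
    rw [Measure.mem_support_iff_forall]
    intro U hU
    have hxU := mem_of_mem_nhds hU
    rcases hx with rfl | rfl
    · simp [μ, hxU, hp1]
    · simp [μ, hxU, hp]

theorem admissible_two {a b p : ℝ} (hab : a < b) (hp : 0 < p) (hp1 : p < 1) :
    Admissible (ENNReal.ofReal (1 - p) • Measure.dirac a + ENNReal.ofReal p • Measure.dirac b)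
      fun N => lam2 N ⌊p * N⌋₊ a b := by
  refine ⟨fun f => ?_, fun ε hε => Eventually.of_forall fun N i => ?_,
    a, Eventually.of_forall fun N i => ?_⟩
  · have hr : Tendsto (fun N : ℕ => (⌊p * N⌋₊ : ℝ) / N) atTop (𝓝 p) :=
      NW.Spec.tendsto_floor_ratio hp.le
    rw [integral_add_measure, integral_smul_measure, integral_smul_measure, integral_dirac,
      integral_dirac, ENNReal.toReal_ofReal (by linarith), ENNReal.toReal_ofReal hp.le]
    rotate_left
    · exact (integrable_dirac (by simp)).smul_measure ENNReal.ofReal_ne_top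
    · exact (integrable_dirac (by simp)).smul_measure ENNReal.ofReal_ne_top
    simp only [smul_eq_mul]
    refine (((tendsto_const_nhds (x := (1 : ℝ))).sub hr).mul_const (f a) |>.add
      (hr.mul_const (f b))).congr' ?_
    filter_upwards [floor_facts hp] with N hf
    have hN : (0 : ℝ) < N := by
      have h0 : (0 : ℝ) < ⌊p * N⌋₊ := by exact_mod_cast hf.1
      linarith [(ratio_facts hp hp1 hf).1]
    have hle : ⌊p * N⌋₊ ≤ N := by exact_mod_cast (ratio_facts hp hp1 hf).1
    have e : ∑ i, f (lam2 N ⌊p * N⌋₊ a b i) =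
        ∑ i : Fin N, (f a + (f b - f a) * if i.val < ⌊p * N⌋₊ then 1 else 0) :=
      Finset.sum_congr rfl fun i _ => by simp only [lam2]; split_ifs <;> ring
    rw [e, Finset.sum_add_distrib, Finset.sum_const, ← Finset.mul_sum, Finset.sum_boole,
      Fin.card_filter_val_lt, min_eq_right hle]
    simp only [Finset.card_univ, Fintype.card_fin, nsmul_eq_mul]
    field_simp
    ring
  · rw [support_two hp hp1, csSup_pair]
    simp only [lam2]
    rw [max_eq_right hab.le]
    split_ifs <;> linarith
  · simp only [lam2]; split_ifs <;> linarith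

/-- The formula for two atoms. -/
theorem two_atom_of (hS : SphereStmt) (hC : ContStmt) : TwoAtomStmt := by
  intro β a b p hβ hab hp hp1 μ hμ
  subst hμ
  set μ := ENNReal.ofReal (1 - p) • Measure.dirac a + ENNReal.ofReal p • Measure.dirac b
  haveI : IsProbabilityMeasure μ := ⟨by
    simp only [μ, Measure.coe_add, Pi.add_apply, Measure.coe_smul, Pi.smul_apply, measure_univ,
      smul_eq_mul, mul_one]
    rw [← ENNReal.ofReal_add (by linarith) hp.le, sub_add_cancel, ENNReal.ofReal_one]⟩
  have hcomp : IsCompact μ.support := by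
    simp only [μ]; rw [support_two hp hp1]; exact (Set.toFinite _).isCompact
  have had := admissible_two (a := a) (b := b) hab hp hp1
  refine ⟨⟨_, had⟩, ?_⟩
  obtain ⟨c, hc⟩ := self_averaging β hβ.le μ hcomp
  set F := twoAtomFormula β a b p
  set lam0 := fun N => lam2 N ⌊p * N⌋₊ a b
  have hm : Tendsto (fun N => meanP β (lam0 N)) atTop (𝓝 F) := by
    refine ((tendsto_const_nhds (x := β * a / 2)).add
      (mean_tendsto hS hC hp hp1 (mul_pos hβ (sub_pos.2 hab)))).congr' ?_
    filter_upwards [eventually_gt_atTop 0] with N hN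
    exact (meanP_affine β a b hN).symm
  have hcm : Tendsto (fun N => meanP β (lam0 N) - c N) atTop (𝓝 0) := by
    refine squeeze_zero_norm (fun N => ?_) (hc _ had)
    rw [meanP, show c N = ∫ _U : OG N, c N ∂orthHaar N by simp,
      ← integral_sub (integrable_cont (continuous_pressure _ _)) (integrable_const _)]
    simpa using norm_integral_le_integral_norm (μ := orthHaar N)
      fun U => pressure β (lam0 N) U - c N
  have hcF : Tendsto (fun N => |c N - F|) atTop (𝓝 0) := by
    have := hm.sub hcm
    simpa using (this.sub_const F).abs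
  intro lam hlam
  refine squeeze_zero (fun N => integral_nonneg fun U => abs_nonneg _) (fun N => ?_)
    (by simpa using (hc lam hlam).add hcF)
  rw [show |c N - F| = ∫ _U : OG N, |c N - F| ∂orthHaar N by simp,
    ← integral_add (integrable_cont (by have := continuous_pressure β (lam N); fun_prop))
      (integrable_const _)]
  exact integral_mono (integrable_cont (by have := continuous_pressure β (lam N); fun_prop))
    ((integrable_cont (by have := continuous_pressure β (lam N); fun_prop)).add (integrable_const _))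
    fun U => abs_sub_le _ _ _

end Vale.Agent.P166.TwoAtom
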