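import Vale.Agent.P157.Full.Sphere.Defs
import Vale.Agent.P157.Full.Defs

/-!
The limiting pressure of a two-atom spectral law, written through spherical perceptrons with the
potentials `h(a z) - c z²`.
-/

noncomputable section

open MeasureTheory ProbabilityTheory
open scoped BigOperators

namespace Vale.Agent.P166.TwoAtom

open Vale.Agent.P157 Vale.Agent.P157.Parisi.Full
open Vale.Agent.P157.Parisi.Full.Spherical (sphereValues)

/-- The potential `h(a z) - c z²`. -/
def pot (h : ℝ → ℝ) (a c z : ℝ) : ℝ := h (a * z) - c * z ^ 2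

/-- A potential cut at `-T`. -/
def cut (f : ℝ → ℝ) (T : ℕ) (z : ℝ) : ℝ := max (f z) (-(T : ℝ))

/-- The limit of the spherical perceptron with `α` patterns per dimension and potential
`h(a z) - c z²`: the variational formula of the cut potentials, as the cut is removed. -/
def sphereLim (α : ℝ) (h : ℝ → ℝ) (a c : ℝ) : ℝ :=
  ⨅ T : ℕ, sInf (sphereValues α (cut (pot h a c) T))

/-- The radial variational problem. -/
def radial (α θ : ℝ) (h : ℝ → ℝ) : ℝ :=
  sSup {v | ∃ t : ℝ, 0 < t ∧ v = Real.log t + sphereLim α h t (t ^ 2 / (2 * θ))}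

/-- The limiting pressure of the law `(1 - p) δ_a + p δ_b`, `a < b`. -/
def twoAtomFormula (β a b p : ℝ) : ℝ :=
  β * a / 2 + p * (radial p⁻¹ (β * (b - a)) logCosh - radial p⁻¹ (β * (b - a)) 0)

end Vale.Agent.P166.TwoAtom
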