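import Vale.Agent.P166.TwoAtom.Ident
import Vale.Agent.P166.NW.Spec.Edge

/-!
An `N × ⌊pN⌋` Gaussian array with `p < 1` is bounded below with probability tending to one.
-/

noncomputable section

open MeasureTheory ProbabilityTheory Matrix Filter
open scoped BigOperators Topology

namespace Vale.Agent.P166.TwoAtom

open Vale.Agent.P157 (patterns)
open Vale.Agent.P166.NW.Spec

/-- The constant of the lower bound. -/
def kap (p : ℝ) : ℝ := ((1 - √p) / 2) ^ 2

theorem kap_pos {p : ℝ} (hp : 0 < p) (hp1 : p < 1) : 0 < kap p := by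
  have : √p < 1 := by rw [Real.sqrt_lt' one_pos, one_pow]; exact hp1
  unfold kap
  have : (0 : ℝ) < (1 - √p) / 2 := by linarith
  positivity

theorem floor_facts {p : ℝ} (hp : 0 < p) :
    ∀ᶠ N : ℕ in atTop, 0 < ⌊p * N⌋₊ ∧ (⌊p * N⌋₊ : ℝ) ≤ p * N ∧ (N : ℝ) ≤ 2 / p * ⌊p * N⌋₊ := by
  filter_upwards [(tendsto_natCast_atTop_atTop (R := ℝ)).eventually_ge_atTop (2 / p)] with N hN
  have h2 : 2 ≤ p * N := by rw [div_le_iff₀ hp] at hN; linarith
  have h3 := Nat.lt_floor_add_one (p * N)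
  refine ⟨Nat.floor_pos.2 (by linarith), Nat.floor_le (by positivity), ?_⟩
  rw [div_mul_eq_mul_div, le_div_iff₀ hp]
  linarith [mul_comm p (N : ℝ)]

theorem below_prob {p : ℝ} (hp : 0 < p) (hp1 : p < 1) :
    Tendsto (fun N : ℕ => (patterns N ⌊p * N⌋₊).real {g | ¬Below (kap p * N) g}) atTop (𝓝 0) := by
  set e := (1 - √p) / 2
  have he : 0 < e := by
    have : √p < 1 := by rw [Real.sqrt_lt' one_pos, one_pow]; exact hp1
    simp only [e]; linarith
  set t : ℕ → ℝ := fun N => e * √(N : ℝ) - 4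
  have ht : Tendsto t atTop atTop :=
    tendsto_atTop_add_const_right _ _ (Tendsto.const_mul_atTop he
      (Real.tendsto_sqrt_atTop.comp tendsto_natCast_atTop_atTop))
  refine squeeze_zero' (Eventually.of_forall fun N => measureReal_nonneg)
    (g := fun N : ℕ => 16 / t N ^ 2) ?_
    (tendsto_const_nhds.div_atTop ((tendsto_pow_atTop two_ne_zero).comp ht))
  filter_upwards [ht.eventually_gt_atTop 0, eventually_ge_atTop 5, floor_facts hp] with N h2 hN hf
  have : NeZero N := ⟨by omega⟩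
  have : NeZero ⌊p * N⌋₊ := ⟨hf.1.ne'⟩
  obtain ⟨ψ, hψ, hm, hc⟩ := lower_singular (M := N) (N := ⌊p * N⌋₊)
  have : IsProbabilityMeasure (patterns N ⌊p * N⌋₊) := by
    unfold Vale.Agent.P157.patterns; infer_instance
  refine (measureReal_mono ?_).trans (hc _ h2)
  intro G hG
  simp only [Below, not_forall, not_le, Set.mem_ofPred_eq] at hG
  obtain ⟨w, hw⟩ := hG
  have hwn : 0 < nv w := by
    refine lt_of_le_of_ne (nv_nonneg w) fun h => ?_
    have : w ⬝ᵥ w = 0 := by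
      have h' := nv_sq w
      rw [← h] at h'
      simp only [dotProduct, ← sq]
      rw [← h', zero_pow two_ne_zero]
    rw [this, mul_zero] at hw
    exact absurd hw (not_lt.2 (Finset.sum_nonneg fun a _ => sq_nonneg _))
  set u : Fin ⌊p * N⌋₊ → ℝ := (nv w)⁻¹ • w with hu
  have hu1 : nv u = 1 := by
    rw [hu, nv_smul, abs_of_pos (inv_pos.2 hwn), inv_mul_cancel₀ hwn.ne']
  have hww : w ⬝ᵥ w = nv w ^ 2 := by rw [nv_sq]; simp [dotProduct, sq]
  have hsq : sqMul G w = nv (mulV G w) ^ 2 := by rw [nv_sq]; rfl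
  rw [hww, hsq] at hw
  have hlt : nv (mulV G w) < e * √(N : ℝ) * nv w := by
    refine (pow_lt_pow_iff_left₀ (nv_nonneg _) (by positivity) two_ne_zero).1 ?_
    rw [mul_pow, mul_pow, Real.sq_sqrt N.cast_nonneg]
    exact hw
  have hψu : ψ G ≤ e * √(N : ℝ) := by
    refine (hψ G u hu1).trans ?_
    have h' : mulV G u = (nv w)⁻¹ • mulV G w := by
      funext a; simp [mulV, hu, Finset.mul_sum, mul_left_comm]
    rw [h', nv_smul, abs_of_pos (inv_pos.2 hwn), inv_mul_le_iff₀ hwn]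
    linarith
  have h3 : √(⌊p * N⌋₊ : ℝ) ≤ √p * √(N : ℝ) := by
    rw [← Real.sqrt_mul hp.le]; exact Real.sqrt_le_sqrt hf.2.1
  have h4 : √(N : ℝ) - 2 ≤ √((N : ℝ) - 4) := by
    have hN' : (5 : ℝ) ≤ N := by exact_mod_cast hN
    refine Real.le_sqrt_of_sq_le ?_
    have h5 := Real.sq_sqrt (Nat.cast_nonneg (α := ℝ) N)
    have : (2 : ℝ) ≤ √(N : ℝ) := Real.le_sqrt_of_sq_le (by linarith)
    nlinarith
  have h6 : √p * √(N : ℝ) + 2 * e * √(N : ℝ) = √(N : ℝ) := by simp only [e]; ring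
  show t N ≤ |ψ G - _|
  refine le_trans ?_ (neg_le_abs _)
  simp only [t]
  linarith

end Vale.Agent.P166.TwoAtom
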