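import Vale.Agent.P166.TwoAtom.Statements
import Vale.Agent.P166.Press

/-!
The exchange of Ising spins for a vector of the column space: for an `N × n` array `G` of full rank
with orthogonal projection `P` on its column space, `2^{-N} ∑_σ exp (θ/2 σᵀPσ)` is the ratio of the
integrals over `ℝ^n` of the potentials `log cosh z - z²/(2θ)` and `-z²/(2θ)` at `z = G w`.
-/

noncomputable section

open MeasureTheory Matrix Filter
open scoped BigOperators

namespace Vale.Agent.P166.TwoAtom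

open Vale.Agent.P157.Parisi.Full (logCosh)

variable {N n : ℕ}

/-- The squared length of `G w`. -/
def sqMul (g : Fin N → Fin n → ℝ) (w : Fin n → ℝ) : ℝ := ∑ a, (g a ⬝ᵥ w) ^ 2

/-- `Gᵀ G`. -/
def colGram (g : Fin N → Fin n → ℝ) : Matrix (Fin n) (Fin n) ℝ := (Matrix.of g)ᵀ * Matrix.of g

/-- The projection on the column space (junk value `0` when `Gᵀ G` is singular). -/
def proj (g : Fin N → Fin n → ℝ) : Matrix (Fin N) (Fin N) ℝ :=
  Matrix.of g * (colGram g)⁻¹ * (Matrix.of g)ᵀ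

/-- The overlap of a spin vector with the column space. -/
def pform (g : Fin N → Fin n → ℝ) (x : Fin N → ℝ) : ℝ := x ⬝ᵥ proj g *ᵥ x

/-- `G` is bounded below by `κ`. -/
def Below (κ : ℝ) (g : Fin N → Fin n → ℝ) : Prop := ∀ w, κ * (w ⬝ᵥ w) ≤ sqMul g w

theorem mulVec_of (g : Fin N → Fin n → ℝ) (w : Fin n → ℝ) :
    Matrix.of g *ᵥ w = fun a => g a ⬝ᵥ w := rfl

theorem sqMul_eq (g : Fin N → Fin n → ℝ) (w : Fin n → ℝ) : sqMul g w = w ⬝ᵥ colGram g *ᵥ w := by
  rw [colGram, ← mulVec_mulVec, dotProduct_mulVec, vecMul_transpose, mulVec_of]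
  simp only [sqMul, dotProduct, sq]

theorem proj_transpose (g : Fin N → Fin n → ℝ) : (proj g)ᵀ = proj g := by
  simp only [proj, transpose_mul, transpose_transpose, transpose_nonsing_inv]
  simp only [colGram, transpose_mul, transpose_transpose, Matrix.mul_assoc]

theorem det_colGram_ne {κ : ℝ} (hκ : 0 < κ) {g : Fin N → Fin n → ℝ} (hg : Below κ g) :
    (colGram g).det ≠ 0 := by
  intro h
  obtain ⟨v, hv, hv0⟩ := exists_mulVec_eq_zero_iff.2 h
  have h1 := hg v
  rw [sqMul_eq, hv0, dotProduct_zero] at h1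
  obtain ⟨i, hi⟩ := Function.ne_iff.1 hv
  have h2 : 0 < v ⬝ᵥ v :=
    Finset.sum_pos' (fun j _ => mul_self_nonneg _) ⟨i, Finset.mem_univ i, mul_self_pos.2 hi⟩
  nlinarith

theorem proj_mul {g : Fin N → Fin n → ℝ} (h : (colGram g).det ≠ 0) :
    proj g * Matrix.of g = Matrix.of g := by
  have := nonsing_inv_mul (colGram g) (isUnit_iff_ne_zero.2 h)
  rw [proj, Matrix.mul_assoc, Matrix.mul_assoc]
  rw [show (Matrix.of g)ᵀ * Matrix.of g = colGram g from rfl, this, Matrix.mul_one]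

theorem proj_proj (g : Fin N → Fin n → ℝ) : proj g * proj g = proj g := by
  by_cases h : (colGram g).det = 0
  · simp [proj, nonsing_inv_apply_not_isUnit _ (by simpa using h : ¬IsUnit (colGram g).det)]
  · conv_lhs => arg 2; rw [proj]
    rw [← Matrix.mul_assoc, ← Matrix.mul_assoc, proj_mul h]
    rfl

theorem proj_trace {g : Fin N → Fin n → ℝ} (h : (colGram g).det ≠ 0) :
    (proj g).trace = n := by
  rw [proj, trace_mul_cycle, show (Matrix.of g)ᵀ * Matrix.of g = colGram g from rfl,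
    mul_nonsing_inv _ (isUnit_iff_ne_zero.2 h), trace_one, Fintype.card_fin]

theorem pform_sq (g : Fin N → Fin n → ℝ) (x : Fin N → ℝ) :
    pform g x = proj g *ᵥ x ⬝ᵥ proj g *ᵥ x := by
  have := dotProduct_mulVec (proj g *ᵥ x) (proj g) x
  rw [pform]
  conv_lhs => rw [← proj_proj g, ← mulVec_mulVec, dotProduct_mulVec]
  rw [← mulVec_transpose, proj_transpose]

theorem pform_bounds (g : Fin N → Fin n → ℝ) (x : Fin N → ℝ) :
    0 ≤ pform g x ∧ pform g x ≤ x ⬝ᵥ x := by
  have h := pform_sq g x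
  refine ⟨h ▸ Finset.sum_nonneg fun i _ => mul_self_nonneg _, ?_⟩
  have h2 : 0 ≤ (x - proj g *ᵥ x) ⬝ᵥ (x - proj g *ᵥ x) :=
    Finset.sum_nonneg fun i _ => mul_self_nonneg _
  simp only [sub_dotProduct, dotProduct_sub] at h2
  rw [dotProduct_comm (proj g *ᵥ x) x] at h2
  change 0 ≤ x ⬝ᵥ x - pform g x - (pform g x - proj g *ᵥ x ⬝ᵥ proj g *ᵥ x) at h2
  linarith

/-- The sum of the potentials `h z - z²/(2θ)`. -/
def wWeight (θ : ℝ) (h : ℝ → ℝ) (g : Fin N → Fin n → ℝ) (w : Fin n → ℝ) : ℝ :=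
  Real.exp (∑ a, pot h 1 (1 / (2 * θ)) (g a ⬝ᵥ w))

/-- The integral over the column space. -/
def wInt (θ : ℝ) (h : ℝ → ℝ) (g : Fin N → Fin n → ℝ) : ℝ := ∫ w, wWeight θ h g w

theorem wWeight_pos (θ : ℝ) (h : ℝ → ℝ) (g : Fin N → Fin n → ℝ) (w : Fin n → ℝ) :
    0 < wWeight θ h g w := Real.exp_pos _

theorem pot_le {θ : ℝ} (hθ : 0 < θ) {h : ℝ → ℝ} (hh : IsLink h) (z : ℝ) :
    pot h 1 (1 / (2 * θ)) z ≤ θ - z ^ 2 / (4 * θ) := by
  have h1 := hh.le_abs z
  have h2 : |z| ≤ θ + z ^ 2 / (4 * θ) := by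
    have : θ + z ^ 2 / (4 * θ) - |z| = (|z| - 2 * θ) ^ 2 / (4 * θ) := by
      field_simp
      rw [sub_sq, sq_abs]
      ring
    linarith [div_nonneg (sq_nonneg (|z| - 2 * θ)) (by positivity : 0 ≤ 4 * θ)]
  have h3 : 1 / (2 * θ) * z ^ 2 = z ^ 2 / (4 * θ) + z ^ 2 / (4 * θ) := by field_simp; ring
  unfold pot
  rw [one_mul, h3]
  linarith

theorem wWeight_le {θ κ : ℝ} (hθ : 0 < θ) {h : ℝ → ℝ} (hh : IsLink h) {g : Fin N → Fin n → ℝ}
    (hg : Below κ g) (w : Fin n → ℝ) :
    wWeight θ h g w ≤ Real.exp (N * θ - κ / (4 * θ) * (w ⬝ᵥ w)) := by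
  refine Real.exp_le_exp.2 ((Finset.sum_le_sum fun a _ => pot_le hθ hh _).trans ?_)
  rw [Finset.sum_sub_distrib, Finset.sum_const, Finset.card_univ, Fintype.card_fin, nsmul_eq_mul,
    ← Finset.sum_div]
  have := div_le_div_of_nonneg_right (hg w) (by positivity : 0 ≤ 4 * θ)
  rw [sqMul] at this
  rw [div_mul_eq_mul_div]
  linarith

theorem continuous_wWeight (θ : ℝ) {h : ℝ → ℝ} (hh : IsLink h) (g : Fin N → Fin n → ℝ) :
    Continuous (wWeight θ h g) := by
  have hc : Continuous h := (LipschitzWith.of_dist_le' (K := 1) fun x y => by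
    simpa [Real.dist_eq] using hh.lip x y).continuous
  unfold wWeight pot dotProduct
  fun_prop

theorem integrable_gauss_dot {c : ℝ} (hc : 0 < c) :
    Integrable fun w : Fin n → ℝ => Real.exp (-c * (w ⬝ᵥ w)) := by
  have : (fun w : Fin n → ℝ => Real.exp (-c * (w ⬝ᵥ w))) =
      fun w => ∏ i, Real.exp (-c * w i ^ 2) := funext fun w => by
    rw [← Real.exp_sum]
    simp only [dotProduct, Finset.mul_sum, sq]
  rw [this]
  exact Integrable.fintype_prod (f := fun _ x => Real.exp (-c * x ^ 2))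
    fun _ => integrable_exp_neg_mul_sq hc

theorem integrable_wWeight {θ κ : ℝ} (hθ : 0 < θ) (hκ : 0 < κ) {h : ℝ → ℝ} (hh : IsLink h)
    {g : Fin N → Fin n → ℝ} (hg : Below κ g) : Integrable (wWeight θ h g) := by
  refine ((integrable_gauss_dot (n := n) (c := κ / (4 * θ)) (by positivity)).const_mul
    (Real.exp (N * θ))).mono' (continuous_wWeight θ hh g).aestronglyMeasurable
    (Eventually.of_forall fun w => ?_)
  rw [Real.norm_eq_abs, abs_of_pos (wWeight_pos θ h g w), ← Real.exp_add]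
  refine (wWeight_le hθ hh hg w).trans_eq (congrArg _ ?_)
  ring

theorem wInt_pos {θ κ : ℝ} (hθ : 0 < θ) (hκ : 0 < κ) {h : ℝ → ℝ} (hh : IsLink h)
    {g : Fin N → Fin n → ℝ} (hg : Below κ g) : 0 < wInt θ h g := by
  refine (integral_pos_iff_support_of_nonneg (fun w => (wWeight_pos θ h g w).le)
    (integrable_wWeight hθ hκ hh hg)).2 ?_
  have : Function.support (wWeight θ h g) = Set.univ :=
    Set.eq_univ_of_forall fun w => (wWeight_pos θ h g w).ne'
  rw [this]
  exact NeZero.pos _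

theorem cosh_prod (z : Fin N → ℝ) :
    ∑ s : Fin N → Bool, Real.exp (∑ a, spin s a * z a) = 2 ^ N * ∏ a, Real.cosh (z a) := by
  have h : ∀ a, (∑ b : Bool, Real.exp ((if b then 1 else -1) * z a)) = 2 * Real.cosh (z a) :=
    fun a => by simp [Real.cosh_eq]; ring
  simp only [spin, Real.exp_sum]
  rw [← Fintype.prod_sum (fun a (b : Bool) => Real.exp ((if b then 1 else -1) * z a))]
  simp only [h, Finset.prod_mul_distrib, Finset.prod_const, Finset.card_univ, Fintype.card_fin]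

theorem isLink_zero : IsLink 0 where
  nonneg _ := le_rfl
  le_abs z := abs_nonneg z
  lip x y := by simp

theorem isLink_logCosh : IsLink logCosh where
  nonneg z := Real.log_nonneg (Real.one_le_cosh z)
  le_abs z := by
    rw [logCosh, Real.log_le_iff_le_exp (Real.cosh_pos z), Real.cosh_eq]
    have := Real.exp_le_exp.2 (le_abs_self z)
    have := Real.exp_le_exp.2 (neg_le_abs z)
    linarith
  lip := by
    have key : ∀ x y : ℝ, logCosh x - logCosh y ≤ |x - y| := fun x y => by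
      rw [logCosh, logCosh, ← Real.log_div (Real.cosh_pos x).ne' (Real.cosh_pos y).ne',
        Real.log_le_iff_le_exp (div_pos (Real.cosh_pos x) (Real.cosh_pos y)),
        div_le_iff₀ (Real.cosh_pos y), Real.cosh_eq, Real.cosh_eq]
      have h1 : Real.exp x ≤ Real.exp |x - y| * Real.exp y := by
        rw [← Real.exp_add]; exact Real.exp_le_exp.2 (by linarith [le_abs_self (x - y)])
      have h2 : Real.exp (-x) ≤ Real.exp |x - y| * Real.exp (-y) := by
        rw [← Real.exp_add]; exact Real.exp_le_exp.2 (by linarith [neg_le_abs (x - y)])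
      linarith
    exact fun x y => abs_sub_le_iff.2 ⟨key x y, abs_sub_comm x y ▸ key y x⟩

/-- One configuration: completing the square. -/
theorem shift_int (θ : ℝ) (hθ : θ ≠ 0) {g : Fin N → Fin n → ℝ}
    (hdet : (colGram g).det ≠ 0) (x : Fin N → ℝ) :
    ∫ w, Real.exp (∑ a, x a * (g a ⬝ᵥ w)) * wWeight θ 0 g w =
      Real.exp (θ / 2 * pform g x) * wInt θ 0 g := by
  set w0 : Fin n → ℝ := θ • ((colGram g)⁻¹ * (Matrix.of g)ᵀ) *ᵥ x with hw0
  have hG0 : Matrix.of g *ᵥ w0 = θ • proj g *ᵥ x := by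
    rw [hw0, mulVec_smul, mulVec_mulVec, ← Matrix.mul_assoc]; rfl
  rw [wInt, ← integral_const_mul, ← integral_add_right_eq_self _ w0]
  refine integral_congr_ae (Eventually.of_forall fun u => ?_)
  simp only [wWeight, ← Real.exp_add, pot, Pi.zero_apply, zero_sub]
  congr 1
  have hz : ∀ a, g a ⬝ᵥ (u + w0) = g a ⬝ᵥ u + θ * (proj g *ᵥ x) a := fun a => by
    rw [dotProduct_add, ← congrFun (mulVec_of g w0) a, hG0]; rfl
  have hc : proj g *ᵥ x ⬝ᵥ (fun a => g a ⬝ᵥ u) = x ⬝ᵥ fun a => g a ⬝ᵥ u := by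
    rw [← mulVec_of, dotProduct_comm, dotProduct_mulVec, ← mulVec_transpose, proj_transpose,
      mulVec_mulVec, proj_mul hdet, dotProduct_comm]
  have hs := pform_sq g x
  simp only [dotProduct] at hc hs
  have hp : pform g x = ∑ a, x a * (proj g *ᵥ x) a := rfl
  simp only [hz]
  set P := proj g *ᵥ x
  set z := fun a => g a ⬝ᵥ u with hzdef
  change ∑ a, P a * z a = ∑ a, x a * z a at hc
  change ∑ a, x a * (z a + θ * P a) + ∑ a, -(1 / (2 * θ) * (z a + θ * P a) ^ 2) =
    θ / 2 * pform g x + ∑ a, -(1 / (2 * θ) * z a ^ 2)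
  have e : ∀ a, x a * (z a + θ * P a) + -(1 / (2 * θ) * (z a + θ * P a) ^ 2) =
      (x a * z a - P a * z a) + (θ * (x a * P a) - θ / 2 * (P a * P a)) +
        -(1 / (2 * θ) * z a ^ 2) := fun a => by field_simp; ring
  rw [← Finset.sum_add_distrib, Finset.sum_congr rfl fun a _ => e a, Finset.sum_add_distrib,
    Finset.sum_add_distrib, Finset.sum_sub_distrib, Finset.sum_sub_distrib, ← Finset.mul_sum,
    ← Finset.mul_sum, hc, ← hs, ← hp]
  ring

/-- The exchange identity. -/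
theorem exchange {θ κ : ℝ} (hθ : 0 < θ) (hκ : 0 < κ) {g : Fin N → Fin n → ℝ} (hg : Below κ g) :
    ((2 : ℝ) ^ N)⁻¹ * ∑ s : Fin N → Bool, Real.exp (θ / 2 * pform g (spin s)) =
      wInt θ logCosh g / wInt θ 0 g := by
  have hdet := det_colGram_ne hκ hg
  rw [eq_div_iff (wInt_pos hθ hκ isLink_zero hg).ne', mul_assoc, Finset.sum_mul]
  simp only [← shift_int θ hθ.ne' hdet]
  have key : ∀ w, ∑ s : Fin N → Bool,
      Real.exp (∑ a, spin s a * (g a ⬝ᵥ w)) * wWeight θ 0 g w =
        2 ^ N * wWeight θ logCosh g w := fun w => by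
    rw [← Finset.sum_mul, cosh_prod, mul_assoc]
    congr 1
    simp only [wWeight, pot, Pi.zero_apply, zero_sub, one_mul, Real.exp_sum,
      ← Finset.prod_mul_distrib, Real.exp_sub, Real.exp_neg, logCosh,
      Real.exp_log (Real.cosh_pos _), div_eq_mul_inv]
  have hI := (integrable_wWeight hθ hκ isLink_logCosh hg).const_mul (2 ^ N : ℝ)
  rw [← integral_finsetSum _ fun s _ => ?_]
  · simp only [key, integral_const_mul]
    rw [← mul_assoc, inv_mul_cancel₀ (by positivity), one_mul]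
    rfl
  · refine hI.mono' ?_ (Eventually.of_forall fun w => ?_)
    · exact ((by unfold dotProduct; fun_prop : Continuous fun w =>
        Real.exp (∑ a, spin s a * (g a ⬝ᵥ w))).mul
          (continuous_wWeight θ isLink_zero g)).aestronglyMeasurable
    · rw [Real.norm_eq_abs, abs_of_pos (mul_pos (Real.exp_pos _) (wWeight_pos θ 0 g w)), ← key]
      exact Finset.single_le_sum
        (f := fun t : Fin N → Bool => Real.exp (∑ a, spin t a * (g a ⬝ᵥ w)) * wWeight θ 0 g w)
        (fun t _ => (mul_pos (Real.exp_pos _) (wWeight_pos θ 0 g w)).le) (Finset.mem_univ s)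

end Vale.Agent.P166.TwoAtom
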