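import Vale.Agent.P166.TwoAtom.Ident

/-!
Polar coordinates on `ℝ^n`: integrals over shells against the sphere law.
-/

noncomputable section

open MeasureTheory ProbabilityTheory Matrix Filter Set
open scoped BigOperators

namespace Vale.Agent.P166.TwoAtom

open Vale.Agent.P157 (sphereLaw)

variable {n : ℕ}

/-- The surface measure of the unit sphere. -/
def sig (n : ℕ) : Measure (Metric.sphere (0 : EuclideanSpace ℝ (Fin n)) 1) :=
  (volume : Measure (EuclideanSpace ℝ (Fin n))).toSphere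

instance : IsFiniteMeasure (sig n) := by unfold sig; infer_instance

/-- The area of the unit sphere. -/
def area (n : ℕ) : ℝ := (sig n).real univ

theorem area_pos [NeZero n] : 0 < area n :=
  ENNReal.toReal_pos (by
    simp [sig, NeZero.ne n, (Metric.measure_ball_pos (volume : Measure (EuclideanSpace ℝ (Fin n))) 0 one_pos).ne'])
    (measure_ne_top _ _)

/-- The radial measure. -/
def radMeas (n : ℕ) : Measure (Ioi (0 : ℝ)) := Measure.volumeIoiPow (n - 1)

instance : SigmaFinite (radMeas n) := by unfold radMeas; infer_instance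

theorem polar [NeZero n] (F : (Fin n → ℝ) → ℝ) :
    ∫ w, F w = ∫ p, F (p.2.1 • (p.1.1 : EuclideanSpace ℝ (Fin n)).ofLp)
      ∂(sig n).prod (radMeas n) := by
  have h0 : ∫ x : EuclideanSpace ℝ (Fin n), F x.ofLp = ∫ w, F w :=
    (PiLp.volume_preserving_ofLp (Fin n)).integral_comp
      (MeasurableEquiv.toLp 2 (Fin n → ℝ)).symm.measurableEmbedding F
  have h1 : ∫ x : EuclideanSpace ℝ (Fin n), F x.ofLp =
      ∫ x : ({(0)}ᶜ : Set (EuclideanSpace ℝ (Fin n))), F (x.1 : EuclideanSpace ℝ (Fin n)).ofLp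
        ∂((volume : Measure (EuclideanSpace ℝ (Fin n))).comap (↑)) := by
    rw [integral_subtype_comap (measurableSet_singleton _).compl
      (fun x : EuclideanSpace ℝ (Fin n) => F x.ofLp), restrict_compl_singleton]
  have h2 := ((volume : Measure (EuclideanSpace ℝ (Fin n))).measurePreserving_homeomorphUnitSphereProd
    ).integral_comp (Homeomorph.measurableEmbedding _)
      fun p => F (p.2.1 • (p.1.1 : EuclideanSpace ℝ (Fin n)).ofLp)
  rw [finrank_euclideanSpace_fin] at h2
  refine (h0.symm.trans h1).trans (Eq.trans ?_ h2)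
  refine integral_congr_ae (Eventually.of_forall fun x => ?_)
  congr 1
  have hx : ‖(x.1 : EuclideanSpace ℝ (Fin n))‖ ≠ 0 := norm_ne_zero_iff.2 x.2
  simp [homeomorphUnitSphereProd, smul_smul, hx]

theorem polar_sq (p : Metric.sphere (0 : EuclideanSpace ℝ (Fin n)) 1 × Ioi (0 : ℝ)) :
    (p.2.1 • (p.1.1 : EuclideanSpace ℝ (Fin n)).ofLp) ⬝ᵥ
      (p.2.1 • (p.1.1 : EuclideanSpace ℝ (Fin n)).ofLp) = p.2.1 ^ 2 := by
  have h : ‖(p.1.1 : EuclideanSpace ℝ (Fin n))‖ ^ 2 = 1 := by
    rw [mem_sphere_zero_iff_norm.1 p.1.2, one_pow]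
  rw [EuclideanSpace.real_norm_sq_eq] at h
  simp only [sq] at h
  rw [smul_dotProduct, dotProduct_smul, smul_eq_mul, smul_eq_mul, dotProduct, h, mul_one, sq]

theorem radMeas_Iio [NeZero n] {x : ℝ} (hx : 0 ≤ x) :
    radMeas n {r | r.1 < x} = ENNReal.ofReal (x ^ n / n) := by
  rcases hx.eq_or_lt with rfl | hx
  · have : {r : Ioi (0 : ℝ) | r.1 < 0} = ∅ :=
      eq_empty_iff_forall_notMem.2 fun r hr => lt_irrefl _ (r.2.out.trans hr)
    simp [this, zero_pow (NeZero.ne n)]
  · have e : {r : Ioi (0 : ℝ) | r.1 < x} = Iio ⟨x, hx⟩ := rfl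
    rw [e, radMeas, Measure.volumeIoiPow_apply_Iio]
    have : n - 1 + 1 = n := Nat.succ_pred_eq_of_ne_zero (NeZero.ne n)
    simp only [this]
    have h2 : ((n - 1 : ℕ) : ℝ) + 1 = n := by exact_mod_cast this
    rw [h2]

theorem radMeas_Ico [NeZero n] {a b : ℝ} (ha : 0 ≤ a) (hab : a ≤ b) :
    (radMeas n).real {r | a ≤ r.1 ∧ r.1 < b} = (b ^ n - a ^ n) / n := by
  have e : {r : Ioi (0 : ℝ) | a ≤ r.1 ∧ r.1 < b} = {r | r.1 < b} \ {r | r.1 < a} := by
    ext r; simp [and_comm]
  have hsub : {r : Ioi (0 : ℝ) | r.1 < a} ⊆ {r | r.1 < b} := fun r hr => lt_of_lt_of_le hr hab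
  rw [e, measureReal_sdiff hsub
    (measurableSet_lt measurable_subtype_coe measurable_const) (by
      rw [radMeas_Iio (ha.trans hab)]; exact ENNReal.ofReal_ne_top)]
  rw [measureReal_def, measureReal_def, radMeas_Iio (ha.trans hab), radMeas_Iio ha,
    ENNReal.toReal_ofReal (by have := ha.trans hab; positivity),
    ENNReal.toReal_ofReal (by positivity), sub_div]

theorem integral_sphereLaw [NeZero n] {G : (Fin n → ℝ) → ℝ} (hG : Continuous G) :
    ∫ x, G x ∂sphereLaw n = (area n)⁻¹ * ∫ u, G (√n • (u.1).ofLp) ∂sig n := by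
  have hm : Measurable fun (u : Metric.sphere (0 : EuclideanSpace ℝ (Fin n)) 1) i =>
      Real.sqrt n * (u : EuclideanSpace ℝ (Fin n)) i := by fun_prop
  rw [sphereLaw, integral_map hm.aemeasurable hG.aestronglyMeasurable, integral_smul_measure,
    ENNReal.toReal_inv, smul_eq_mul]
  rfl

/-- The shell between radii `a` and `b`. -/
def shell (n : ℕ) (a b : ℝ) : Set (Fin n → ℝ) := {w | a ^ 2 ≤ w ⬝ᵥ w ∧ w ⬝ᵥ w < b ^ 2}

theorem measurableSet_shell (a b : ℝ) : MeasurableSet (shell n a b) := by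
  have h : Measurable fun w : Fin n → ℝ => w ⬝ᵥ w :=
    (show Continuous fun w : Fin n → ℝ => w ⬝ᵥ w by unfold dotProduct; fun_prop).measurable
  exact (measurableSet_le measurable_const h).inter (measurableSet_lt h measurable_const)

theorem shell_polar [NeZero n] {a b : ℝ} (ha : 0 ≤ a) (hb : 0 ≤ b) (F : (Fin n → ℝ) → ℝ) :
    ∫ w in shell n a b, F w =
      ∫ p, F (p.2.1 • (p.1.1 : EuclideanSpace ℝ (Fin n)).ofLp)
        ∂(sig n).prod ((radMeas n).restrict {r | a ≤ r.1 ∧ r.1 < b}) := by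
  have hm : MeasurableSet {r : Ioi (0 : ℝ) | a ≤ r.1 ∧ r.1 < b} :=
    (measurableSet_le measurable_const measurable_subtype_coe).inter
      (measurableSet_lt measurable_subtype_coe measurable_const)
  have hres : (sig n).prod ((radMeas n).restrict {r | a ≤ r.1 ∧ r.1 < b}) =
      ((sig n).prod (radMeas n)).restrict (univ ×ˢ {r | a ≤ r.1 ∧ r.1 < b}) := by
    rw [← Measure.prod_restrict, Measure.restrict_univ]
  rw [hres, ← integral_indicator (measurableSet_shell a b), polar,
    ← integral_indicator (MeasurableSet.univ.prod hm)]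
  refine integral_congr_ae (Eventually.of_forall fun p => ?_)
  have hr : (0 : ℝ) < p.2.1 := p.2.2
  have e : (p.2.1 • (p.1.1 : EuclideanSpace ℝ (Fin n)).ofLp ∈ shell n a b) ↔
      p ∈ (univ : Set _) ×ˢ {r : Ioi (0 : ℝ) | a ≤ r.1 ∧ r.1 < b} := by
    simp only [shell, Set.mem_ofPred_eq, polar_sq, mem_prod, mem_univ, true_and]
    rw [pow_le_pow_iff_left₀ ha hr.le two_ne_zero, pow_lt_pow_iff_left₀ hr.le hb two_ne_zero]
  simp only [indicator, e]

theorem integrable_polar [NeZero n] {F : (Fin n → ℝ) → ℝ} (hF : Continuous F) {a b : ℝ}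
    (ha : 0 ≤ a) (hab : a ≤ b) :
    Integrable (fun p => F (p.2.1 • (p.1.1 : EuclideanSpace ℝ (Fin n)).ofLp))
      ((sig n).prod ((radMeas n).restrict {r | a ≤ r.1 ∧ r.1 < b})) := by
  obtain ⟨C, hC⟩ := (isCompact_closedBall (0 : Fin n → ℝ) b).exists_bound_of_continuousOn
    hF.continuousOn
  have : IsFiniteMeasure ((radMeas n).restrict {r | a ≤ r.1 ∧ r.1 < b}) := ⟨by
    rw [Measure.restrict_apply_univ]
    refine lt_of_le_of_lt (measure_mono (show {r : Ioi (0 : ℝ) | a ≤ r.1 ∧ r.1 < b} ⊆ {r | r.1 < b} from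
      fun r hr => hr.2)) ?_
    rw [radMeas_Iio (ha.trans hab)]
    exact ENNReal.ofReal_lt_top⟩
  refine Integrable.of_bound (hF.comp (by fun_prop)).aestronglyMeasurable C ?_
  have hmem : ∀ᵐ p ∂((sig n).prod ((radMeas n).restrict {r | a ≤ r.1 ∧ r.1 < b})),
      a ≤ p.2.1 ∧ p.2.1 < b :=
    Measure.quasiMeasurePreserving_snd.ae (ae_restrict_mem
      ((measurableSet_le measurable_const measurable_subtype_coe).inter
        (measurableSet_lt measurable_subtype_coe measurable_const)))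
  filter_upwards [hmem] with p hp
  refine hC _ (mem_closedBall_zero_iff.2 ?_)
  rw [norm_smul, Real.norm_eq_abs, abs_of_pos p.2.2]
  refine (mul_le_of_le_one_right p.2.2.out.le ?_).trans hp.2.le
  refine (pi_norm_le_iff_of_nonneg zero_le_one).2 fun i => ?_
  exact (PiLp.norm_apply_le p.1.1 i).trans_eq (mem_sphere_zero_iff_norm.1 p.1.2)

theorem shell_le [NeZero n] {F G : (Fin n → ℝ) → ℝ} (hF : Continuous F) (hG : Continuous G)
    {a b : ℝ} (ha : 0 ≤ a) (hab : a ≤ b)
    (h : ∀ t x, a ≤ t → t < b → F ((t / √n) • x) ≤ G x) :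
    ∫ w in shell n a b, F w ≤ area n * ((b ^ n - a ^ n) / n) * ∫ x, G x ∂sphereLaw n := by
  have hm : MeasurableSet {r : Ioi (0 : ℝ) | a ≤ r.1 ∧ r.1 < b} :=
    (measurableSet_le measurable_const measurable_subtype_coe).inter
      (measurableSet_lt measurable_subtype_coe measurable_const)
  have hs : (0 : ℝ) < √n := Real.sqrt_pos.2 (by exact_mod_cast NeZero.pos n)
  rw [shell_polar ha (ha.trans hab), integral_sphereLaw hG]
  have : IsFiniteMeasure ((radMeas n).restrict {r | a ≤ r.1 ∧ r.1 < b}) := ⟨by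
    rw [Measure.restrict_apply_univ]
    refine lt_of_le_of_lt (measure_mono (show {r : Ioi (0 : ℝ) | a ≤ r.1 ∧ r.1 < b} ⊆ {r | r.1 < b} from
      fun r hr => hr.2)) ?_
    rw [radMeas_Iio (ha.trans hab)]
    exact ENNReal.ofReal_lt_top⟩
  have hmem : ∀ᵐ p ∂((sig n).prod ((radMeas n).restrict {r | a ≤ r.1 ∧ r.1 < b})),
      a ≤ p.2.1 ∧ p.2.1 < b :=
    Measure.quasiMeasurePreserving_snd.ae (ae_restrict_mem hm)
  have hGi : Integrable (fun u => G (√n • (u.1 : EuclideanSpace ℝ (Fin n)).ofLp)) (sig n) := by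
    obtain ⟨C, hC⟩ := isCompact_univ.exists_bound_of_continuousOn
      (f := fun u : Metric.sphere (0 : EuclideanSpace ℝ (Fin n)) 1 => G (√n • u.1.ofLp))
      (hG.comp (by fun_prop)).continuousOn
    exact Integrable.of_bound (hG.comp (by fun_prop)).aestronglyMeasurable C
      (Eventually.of_forall fun u => hC u trivial)
  refine (integral_mono_ae (integrable_polar hF ha hab) (hGi.comp_fst _) ?_).trans_eq ?_
  · filter_upwards [hmem] with p hp
    have := h p.2.1 (√n • (p.1.1 : EuclideanSpace ℝ (Fin n)).ofLp) hp.1 hp.2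
    rwa [smul_smul, div_mul_cancel₀ _ hs.ne'] at this
  · rw [integral_fun_fst (fun u : Metric.sphere (0 : EuclideanSpace ℝ (Fin n)) 1 =>
        G (√n • (u.1 : EuclideanSpace ℝ (Fin n)).ofLp)),
      measureReal_restrict_apply_univ, radMeas_Ico ha hab, smul_eq_mul]
    field_simp [(area_pos (n := n)).ne']

theorem shell_ge [NeZero n] {F G : (Fin n → ℝ) → ℝ} (hF : Continuous F) (hG : Continuous G)
    {a b : ℝ} (ha : 0 ≤ a) (hab : a ≤ b)
    (h : ∀ t x, a ≤ t → t < b → G x ≤ F ((t / √n) • x)) :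
    area n * ((b ^ n - a ^ n) / n) * ∫ x, G x ∂sphereLaw n ≤ ∫ w in shell n a b, F w := by
  have h1 := shell_le hF.neg hG.neg ha hab fun t x ht ht' => neg_le_neg (h t x ht ht')
  simp only [Pi.neg_apply, integral_neg, mul_neg] at h1
  exact neg_le_neg_iff.1 h1

/-- Gaussian integrals against the area. -/
theorem gauss_area [NeZero n] {c : ℝ} (hc : 0 < c) :
    ∫ w : Fin n → ℝ, Real.exp (-(c * n) * (w ⬝ᵥ w)) ≤
      area n * (max 1 (√(Real.pi / c))) ^ n := by
  set C := max 1 (√(Real.pi / c))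
  have hn : (1 : ℝ) ≤ n := by exact_mod_cast NeZero.pos n
  rw [polar]
  simp only [polar_sq]
  rw [integral_fun_snd (fun r : Ioi (0 : ℝ) => Real.exp (-(c * n) * r.1 ^ 2))]
  rw [smul_eq_mul, area]
  refine mul_le_mul_of_nonneg_left ?_ measureReal_nonneg
  unfold radMeas Measure.volumeIoiPow
  simp only [ENNReal.ofReal]
  rw [integral_withDensity_eq_integral_smul (by fun_prop),
    integral_subtype_comap measurableSet_Ioi
      fun t : ℝ => Real.toNNReal (t ^ (n - 1)) • Real.exp (-(c * n) * t ^ 2)]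
  have key : ∀ t : ℝ, 0 < t →
      Real.toNNReal (t ^ (n - 1)) • Real.exp (-(c * n) * t ^ 2) ≤
        C ^ (n - 1) * Real.exp (-c * t ^ 2) := by
    intro t ht
    rw [NNReal.smul_def, Real.coe_toNNReal _ (by positivity), smul_eq_mul]
    have e : Real.exp (-(c * n) * t ^ 2) =
        Real.exp (-c * t ^ 2) ^ (n - 1) * Real.exp (-c * t ^ 2) := by
      rw [← pow_succ, Nat.sub_add_cancel (NeZero.pos n), ← Real.exp_nat_mul]; ring_nf
    rw [e, ← mul_assoc, ← mul_pow]
    refine mul_le_mul_of_nonneg_right (pow_le_pow_left₀ (by positivity) ?_ _) (Real.exp_pos _).le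
    have h1 := Real.add_one_le_exp (c * t ^ 2)
    have h2 : √(Real.pi / c) * √c = √Real.pi := by
      rw [← Real.sqrt_mul (by positivity), div_mul_cancel₀ _ hc.ne']
    have h3 : 1 ≤ √Real.pi := Real.one_le_sqrt.2 (by linarith [Real.pi_gt_three])
    have h4 : t * √c ≤ c * t ^ 2 + 1 := by
      nlinarith [sq_nonneg (t * √c - 1), Real.mul_self_sqrt hc.le, mul_nonneg ht.le (Real.sqrt_nonneg c)]
    rw [neg_mul, Real.exp_neg, ← div_eq_mul_inv, div_le_iff₀ (Real.exp_pos _)]
    have h5 : t * √c ≤ C * √c * Real.exp (c * t ^ 2) := by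
      have : 1 ≤ C * √c := by
        nlinarith [le_max_right 1 (√(Real.pi / c)), Real.sqrt_nonneg c]
      nlinarith [Real.exp_pos (c * t ^ 2)]
    refine le_of_mul_le_mul_right ?_ (Real.sqrt_pos.2 hc)
    linarith
  have hi : IntegrableOn (fun t : ℝ => C ^ (n - 1) * Real.exp (-c * t ^ 2)) (Ioi 0) :=
    ((integrable_exp_neg_mul_sq hc).const_mul _).integrableOn
  refine (setIntegral_mono_on (hi.mono' ?_ ?_) hi measurableSet_Ioi fun t ht => key t ht).trans ?_
  · exact (by simp only [NNReal.smul_def, smul_eq_mul]; fun_prop :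
      Continuous fun t : ℝ => Real.toNNReal (t ^ (n - 1)) • Real.exp (-(c * n) * t ^ 2)
      ).aestronglyMeasurable
  · filter_upwards [ae_restrict_mem measurableSet_Ioi] with t ht
    rw [Real.norm_eq_abs, abs_of_nonneg (by rw [NNReal.smul_def]; positivity)]
    exact key t ht
  · rw [integral_const_mul, integral_gaussian_Ioi]
    conv_rhs => rw [← Nat.sub_add_cancel (NeZero.pos n), pow_succ]
    refine mul_le_mul_of_nonneg_left ?_ (by positivity)
    linarith [le_max_right 1 (√(Real.pi / c)), Real.sqrt_nonneg (Real.pi / c)]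

end Vale.Agent.P166.TwoAtom
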