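import Vale.Agent.P166.TwoAtom.Radial
import Vale.Agent.P166.NW.Spec.Transfer

/-!
The pressure of a Gaussian projection: rotation invariance makes its mean the mean pressure of the
spectrum with `n` ones and `N - n` zeros in Haar position.
-/

noncomputable section

open MeasureTheory ProbabilityTheory Matrix Filter Set
open scoped BigOperators Topology

namespace Vale.Agent.P166.TwoAtom

open Vale.Agent.P157 (patterns)
open Vale.Agent.P157.Parisi.Full (logCosh)

variable {N n : ℕ}

/-- The spectrum with `n` entries `b` and the others `a`. -/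
def lam2 (N n : ℕ) (a b : ℝ) : Fin N → ℝ := fun i => if i.val < n then b else a

/-- The pressure of the projection on the column space. -/
def projP (θ : ℝ) (g : Fin N → Fin n → ℝ) : ℝ :=
  (Real.log (∑ s : Fin N → Bool, Real.exp (θ / 2 * pform g (spin s))) - Real.log ((2 : ℝ) ^ N)) / N

/-- Rotating the rows. -/
def rowRot (W : OG N) (g : Fin N → Fin n → ℝ) : Fin N → Fin n → ℝ :=
  fun b i => act W⁻¹ (fun a => g a i) b

theorem of_rowRot (W : OG N) (g : Fin N → Fin n → ℝ) :
    Matrix.of (rowRot W g) = (W : Matrix (Fin N) (Fin N) ℝ)ᵀ * Matrix.of g := rfl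

theorem colGram_rowRot (W : OG N) (g : Fin N → Fin n → ℝ) :
    colGram (rowRot W g) = colGram g := by
  have h : (W : Matrix (Fin N) (Fin N) ℝ) * (W : Matrix (Fin N) (Fin N) ℝ)ᵀ = 1 :=
    (Matrix.mem_orthogonalGroup_iff (Fin N) ℝ).1 W.2
  rw [colGram, of_rowRot, transpose_mul, transpose_transpose, Matrix.mul_assoc,
    ← Matrix.mul_assoc (W : Matrix (Fin N) (Fin N) ℝ), h, Matrix.one_mul]
  rfl

theorem proj_rowRot (W : OG N) (g : Fin N → Fin n → ℝ) :
    proj (rowRot W g) =
      (W : Matrix (Fin N) (Fin N) ℝ)ᵀ * proj g * (W : Matrix (Fin N) (Fin N) ℝ) := by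
  rw [proj, colGram_rowRot, of_rowRot, transpose_mul, transpose_transpose, proj]
  simp only [Matrix.mul_assoc]

theorem pform_rowRot (W : OG N) (g : Fin N → Fin n → ℝ) (x : Fin N → ℝ) :
    pform (rowRot W g) x = pform g (act W x) := by
  rw [pform, proj_rowRot, ← mulVec_mulVec, ← mulVec_mulVec, dotProduct_mulVec, vecMul_transpose]
  rfl

theorem projP_eq {g : Fin N → Fin n → ℝ} {d : Fin N → ℝ} {V : OG N}
    (hd : ∀ x, pform g x = ∑ i, d i * act V x i ^ 2) (θ : ℝ) (W : OG N) :
    projP θ (rowRot W g) = pressure θ d (V * W) := by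
  rw [projP, pressure_eq, part]
  congr 3
  refine Finset.sum_congr rfl fun s _ => ?_
  rw [en_eq, pform_rowRot, hd]
  simp only [act_mul]

/-- An array bounded below has a projection with `n` unit eigenvalues. -/
theorem proj_spec {κ : ℝ} (hκ : 0 < κ) {g : Fin N → Fin n → ℝ} (hg : Below κ g) :
    ∃ (π : Equiv.Perm (Fin N)) (V : OG N),
      ∀ x, pform g x = ∑ i, (lam2 N n 0 1 ∘ π) i * act V x i ^ 2 := by
  classical
  have hA : (proj g).IsHermitian := by
    rw [Matrix.IsHermitian, conjTranspose_eq_transpose_of_trivial, proj_transpose]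
  set d := hA.eigenvalues
  set V : OG N := (⟨(hA.eigenvectorUnitary : Matrix (Fin N) (Fin N) ℝ),
    hA.eigenvectorUnitary.2⟩ : OG N)⁻¹
  have hform : ∀ x, pform g x = ∑ i, d i * act V x i ^ 2 := by
    intro x
    have h := hA.spectral_theorem
    rw [Unitary.conjStarAlgAut_apply] at h
    rw [pform]
    conv_lhs => rw [h, ← mulVec_mulVec, ← mulVec_mulVec, dotProduct_mulVec, ← mulVec_transpose]
    simp only [dotProduct, mulVec_diagonal, Function.comp_apply, RCLike.ofReal_real_eq_id, id]
    refine Finset.sum_congr rfl fun i _ => ?_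
    have e : ((V : OG N) : Matrix (Fin N) (Fin N) ℝ) =
        (hA.eigenvectorUnitary : Matrix (Fin N) (Fin N) ℝ)ᵀ := rfl
    simp only [act, e, d, Matrix.star_eq_conjTranspose, conjTranspose_eq_transpose_of_trivial]
    ring
  have h01 : ∀ i, d i = 0 ∨ d i = 1 := by
    intro i
    set v : Fin N → ℝ := ⇑(hA.eigenvectorBasis i) with hv
    have h1 : proj g *ᵥ v = d i • v := hA.mulVec_eigenvectorBasis i
    have h2 : proj g *ᵥ proj g *ᵥ v = proj g *ᵥ v := by rw [mulVec_mulVec, proj_proj]
    rw [h1, mulVec_smul, h1, smul_smul] at h2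
    have hv0 : v ≠ 0 := fun h0 => by
      have := (hA.eigenvectorBasis).orthonormal.ne_zero i
      exact this (WithLp.ofLp_injective 2 (by simpa [hv] using h0))
    have h3 : d i * d i = d i := smul_left_injective ℝ hv0 h2
    rcases eq_or_ne (d i) 0 with h | h
    · exact Or.inl h
    · exact Or.inr (mul_left_cancel₀ h (h3.trans (mul_one _).symm))
  have hcard : (Finset.univ.filter fun i => d i = 1).card = n := by
    have h1 : (n : ℝ) = ∑ i, d i := by
      rw [← proj_trace (det_colGram_ne hκ hg), hA.trace_eq_sum_eigenvalues]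
      rfl
    have h2 : ∑ i, d i = ((Finset.univ.filter fun i => d i = 1).card : ℝ) := by
      rw [Finset.card_filter, Nat.cast_sum]
      refine Finset.sum_congr rfl fun i _ => ?_
      rcases h01 i with h | h <;> simp [h]
    exact_mod_cast (h1.trans h2).symm
  have hnN : n ≤ N := by
    rw [← hcard]
    exact (Finset.card_filter_le _ _).trans_eq (by simp)
  have hcard2 : Fintype.card {i : Fin N // d i = 1} = Fintype.card {i : Fin N // i.val < n} := by
    rw [Fintype.card_subtype, hcard, Fintype.card_subtype, Fin.card_filter_val_lt, min_eq_right hnN]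
  set e : {i : Fin N // d i = 1} ≃ {i : Fin N // i.val < n} := Fintype.equivOfCardEq hcard2
  refine ⟨e.extendSubtype, V, fun x => ?_⟩
  rw [hform]
  refine Finset.sum_congr rfl fun i _ => ?_
  congr 1
  rcases h01 i with h | h
  · have := e.extendSubtype_not_mem i (by rw [h]; norm_num)
    simp only [Function.comp_apply, lam2, if_neg this, h]
  · have := e.extendSubtype_mem i h
    simp only [Function.comp_apply, lam2, if_pos this, h]

/-- Averaging over rotations gives the mean pressure of the two-valued spectrum. -/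
theorem integral_projP_rot {κ : ℝ} (hκ : 0 < κ) {g : Fin N → Fin n → ℝ} (hg : Below κ g) (θ : ℝ) :
    ∫ W, projP θ (rowRot W g) ∂orthHaar N = meanP θ (lam2 N n 0 1) := by
  obtain ⟨π, V, hV⟩ := proj_spec hκ hg
  simp only [projP_eq hV θ]
  rw [integral_mul_left_eq_self (μ := orthHaar N) (pressure θ (lam2 N n 0 1 ∘ π)) V]
  exact meanP_perm θ π (lam2 N n 0 1)

theorem projP_bounds {θ : ℝ} (hθ : 0 ≤ θ) (g : Fin N → Fin n → ℝ) :
    0 ≤ projP θ g ∧ projP θ g ≤ θ / 2 := by
  rcases Nat.eq_zero_or_pos N with rfl | hN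
  · simp [projP]; linarith
  have hNr : (0 : ℝ) < N := by exact_mod_cast hN
  set S := ∑ s : Fin N → Bool, Real.exp (θ / 2 * pform g (spin s))
  have h1 : (2 : ℝ) ^ N ≤ S := by
    refine le_trans (le_of_eq ?_) (Finset.sum_le_sum (f := fun _ : Fin N → Bool => (1 : ℝ))
      fun s _ => Real.one_le_exp (mul_nonneg (by linarith) (pform_bounds g _).1))
    simp
  have h2 : S ≤ 2 ^ N * Real.exp (θ / 2 * N) := by
    refine (Finset.sum_le_sum (g := fun _ : Fin N → Bool => Real.exp (θ / 2 * N))
      fun s _ => Real.exp_le_exp.2 ?_).trans (le_of_eq ?_)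
    · exact mul_le_mul_of_nonneg_left ((pform_bounds g _).2.trans_eq (spin_dot s)) (by linarith)
    · simp
  have hS : 0 < S := lt_of_lt_of_le (by positivity) h1
  constructor
  · exact div_nonneg (sub_nonneg.2 (Real.log_le_log (by positivity) h1)) hNr.le
  · rw [projP, div_le_iff₀ hNr]
    have := Real.log_le_log hS h2
    rw [Real.log_mul (by positivity) (Real.exp_pos _).ne', Real.log_exp] at this
    linarith

theorem measurable_projP (θ : ℝ) : Measurable (projP (N := N) (n := n) θ) := by
  have hc : Continuous fun g : Fin N → Fin n → ℝ => colGram g := by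
    refine continuous_matrix fun i j => ?_
    simp only [colGram, Matrix.mul_apply, Matrix.transpose_apply, Matrix.of_apply]
    fun_prop
  have hi : ∀ i j, Measurable fun g : Fin N → Fin n → ℝ => (colGram g)⁻¹ i j := by
    intro i j
    simp only [Matrix.inv_def, Matrix.smul_apply, smul_eq_mul, Ring.inverse_eq_inv']
    exact hc.matrix_det.measurable.inv.mul
      ((continuous_apply_apply i j).comp hc.matrix_adjugate).measurable
  have hq : ∀ s : Fin N → Bool, Measurable fun g : Fin N → Fin n → ℝ => pform g (spin s) := by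
    intro s
    have he : ∀ (a : Fin N) (i : Fin n), Measurable fun g : Fin N → Fin n → ℝ => g a i :=
      fun a i => (measurable_pi_apply i).comp (measurable_pi_apply a)
    simp only [pform, proj, dotProduct, mulVec, Matrix.mul_apply, Matrix.transpose_apply,
      Matrix.of_apply]
    exact Finset.measurable_sum _ fun a _ => Measurable.const_mul (Finset.measurable_sum _
      fun b _ => Measurable.mul_const (Finset.measurable_sum _ fun i _ => Measurable.mul
        (Finset.measurable_sum _ fun j _ => (he a j).mul (hi j i)) (he b i)) _) _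
  exact ((Real.measurable_log.comp (Finset.measurable_sum _ fun s _ =>
    Real.measurable_exp.comp ((hq s).const_mul _))).sub_const _).div_const _

/-- Swapping the indices of an array. -/
def arrSwap (N n : ℕ) (g : Fin N → Fin n → ℝ) : Fin n → Fin N → ℝ := fun i a => g a i

theorem arrSwap_preserving (N n : ℕ) :
    MeasurePreserving (arrSwap N n) (patterns N n) (patterns n N) := by
  have hp : ∀ M K : ℕ, MeasurePreserving (MeasurableEquiv.curry (Fin M) (Fin K) ℝ)
      (Measure.pi fun _ : Fin M × Fin K => gaussianReal 0 1) (patterns M K) := fun M K => by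
    refine ⟨(MeasurableEquiv.curry _ _ _).measurable, ?_⟩
    rw [← Measure.infinitePi_eq_pi,
      Measure.infinitePi_map_curry (fun (_ : Fin M) (_ : Fin K) => gaussianReal 0 1),
      Measure.infinitePi_eq_pi]
    simp only [Vale.Agent.P157.patterns, Measure.infinitePi_eq_pi]
  have hs := measurePreserving_piCongrLeft (α := fun _ : Fin n × Fin N => ℝ)
    (fun _ => gaussianReal 0 1) (Equiv.prodComm (Fin N) (Fin n))
  have h := ((hp n N).comp hs).comp ((hp N n).symm _)
  have e : arrSwap N n = (⇑(MeasurableEquiv.curry (Fin n) (Fin N) ℝ) ∘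
      ⇑(MeasurableEquiv.piCongrLeft (fun _ : Fin n × Fin N => ℝ) (Equiv.prodComm (Fin N) (Fin n)))) ∘
      ⇑(MeasurableEquiv.curry (Fin N) (Fin n) ℝ).symm := by
    funext g i a
    simp [arrSwap, MeasurableEquiv.piCongrLeft, Equiv.piCongrLeft, MeasurableEquiv.curry]
  rw [e]
  exact h

theorem rowRot_eq (W : OG N) (g : Fin N → Fin n → ℝ) :
    rowRot W g = arrSwap n N (NW.Spec.rot W (arrSwap N n g)) := rfl

theorem continuous_rowRot :
    Continuous fun p : OG N × (Fin N → Fin n → ℝ) => rowRot p.1 p.2 := by
  have hs : ∀ A B : ℕ, Continuous (arrSwap A B) := fun A B =>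
    continuous_pi fun i => continuous_pi fun a => (continuous_apply i).comp (continuous_apply a)
  simp only [rowRot_eq]
  exact (hs n N).comp (NW.Spec.continuous_rot.comp (continuous_fst.prodMk ((hs N n).comp continuous_snd)))

theorem rot_mean2 {F : (Fin N → Fin n → ℝ) → ℝ} (hF : Integrable F (patterns N n)) :
    Integrable (fun g => ∫ W, F (rowRot W g) ∂orthHaar N) (patterns N n) ∧
      ∫ g, ∫ W, F (rowRot W g) ∂orthHaar N ∂patterns N n = ∫ g, F g ∂patterns N n := by
  have h1 := arrSwap_preserving N n
  have h2 := arrSwap_preserving n N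
  have hF' : Integrable (fun h => F (arrSwap n N h)) (patterns n N) :=
    h2.integrable_comp_of_integrable hF
  obtain ⟨hi, he⟩ := NW.Spec.rot_mean hF'
  simp only [rowRot_eq]
  refine ⟨h1.integrable_comp_of_integrable hi, ?_⟩
  have e1 := integral_map (μ := patterns N n) h1.measurable.aemeasurable
    (f := fun h => ∫ W, F (arrSwap n N (NW.Spec.rot W h)) ∂orthHaar N)
    (by rw [h1.map_eq]; exact hi.aestronglyMeasurable)
  rw [h1.map_eq] at e1
  have e2 := integral_map (μ := patterns n N) h2.measurable.aemeasurable (f := F)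
    (by rw [h2.map_eq]; exact hF.aestronglyMeasurable)
  rw [h2.map_eq] at e2
  rw [← e1, he, ← e2]

theorem integrable_projP {θ : ℝ} (hθ : 0 ≤ θ) : Integrable (projP (N := N) (n := n) θ)
    (patterns N n) := by
  have := prob_patterns N n
  refine Integrable.of_bound (measurable_projP θ).aestronglyMeasurable (θ / 2)
    (Eventually.of_forall fun g => ?_)
  rw [Real.norm_eq_abs, abs_of_nonneg (projP_bounds hθ g).1]
  exact (projP_bounds hθ g).2

/-- The mean pressure of the projection. -/
theorem mean_projP {θ : ℝ} (hθ : 0 ≤ θ) {κ : ℝ} (hκ : 0 < κ) :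
    |∫ g, projP θ g ∂patterns N n - meanP θ (lam2 N n 0 1)| ≤
      (θ / 2 + |meanP θ (lam2 N n 0 1)|) * (patterns N n).real {g | ¬Below κ g} := by
  have := prob_patterns N n
  obtain ⟨hi, he⟩ := rot_mean2 (integrable_projP (N := N) (n := n) hθ)
  set m := meanP θ (lam2 N n 0 1)
  have hY : ∀ g : Fin N → Fin n → ℝ,
      |∫ W, projP θ (rowRot W g) ∂orthHaar N| ≤ θ / 2 := fun g => by
    have h := norm_integral_le_of_norm_le_const (μ := orthHaar N)
      (f := fun W => projP θ (rowRot W g)) (C := θ / 2) (Eventually.of_forall fun W => by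
        rw [Real.norm_eq_abs, abs_of_nonneg (projP_bounds hθ _).1]; exact (projP_bounds hθ _).2)
    simpa using h
  have hm : MeasurableSet {g : Fin N → Fin n → ℝ | ¬Below κ g} := by
    have : {g : Fin N → Fin n → ℝ | Below κ g} = ⋂ w, {g | κ * (w ⬝ᵥ w) ≤ sqMul g w} := by
      ext g; simp [Below]
    refine MeasurableSet.compl ?_
    show MeasurableSet {g : Fin N → Fin n → ℝ | Below κ g}
    rw [this]
    exact (isClosed_iInter fun w => isClosed_le continuous_const
      (by unfold sqMul dotProduct; fun_prop)).measurableSet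
  rw [← he, ← Real.norm_eq_abs,
    show m = ∫ _g : Fin N → Fin n → ℝ, m ∂patterns N n by simp,
    ← integral_sub hi (integrable_const _)]
  refine (norm_integral_le_integral_norm _).trans ?_
  refine (integral_mono (hi.sub (integrable_const _)).norm
    ((integrable_const (θ / 2 + |m|)).indicator hm) fun g => ?_).trans_eq ?_
  · simp only [Pi.sub_apply, Real.norm_eq_abs]
    by_cases hg : Below κ g
    · rw [indicator_of_notMem (by simpa using hg), integral_projP_rot hκ hg, sub_self, abs_zero]
    · rw [indicator_of_mem (by simpa using hg)]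
      exact (abs_sub _ _).trans (add_le_add (hY g) le_rfl)
  · rw [integral_indicator hm, setIntegral_const, smul_eq_mul, mul_comm]
    simp

end Vale.Agent.P166.TwoAtom
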