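import Vale.Agent.P166.TwoAtom.Shells

/-!
The exponential rate of the integral over `ℝ^n` is the radial variational problem.
-/

noncomputable section

open MeasureTheory ProbabilityTheory Matrix Filter Set
open scoped BigOperators Topology

namespace Vale.Agent.P166.TwoAtom

open Vale.Agent.P157 (patterns)

/-- The value at radius `t`. -/
def val (α θ : ℝ) (h : ℝ → ℝ) (t : ℝ) : ℝ := Real.log t + sphereLim α h t (t ^ 2 / (2 * θ))

theorem radial_eq (α θ : ℝ) (h : ℝ → ℝ) :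
    radial α θ h = sSup {v | ∃ t : ℝ, 0 < t ∧ v = val α θ h t} := rfl

theorem prob_patterns (M N : ℕ) : IsProbabilityMeasure (patterns M N) := by
  unfold Vale.Agent.P157.patterns; infer_instance

theorem ratio_facts {p : ℝ} (hp : 0 < p) (hp1 : p < 1) {N : ℕ}
    (hf : 0 < ⌊p * N⌋₊ ∧ (⌊p * N⌋₊ : ℝ) ≤ p * N ∧ (N : ℝ) ≤ 2 / p * ⌊p * N⌋₊) :
    (⌊p * N⌋₊ : ℝ) ≤ N ∧ 0 < kap p * N := by
  have hN : (0 : ℝ) ≤ N := N.cast_nonneg
  have h1 : (⌊p * N⌋₊ : ℝ) ≤ N := by nlinarith [hf.2.1]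
  have h2 : (0 : ℝ) < ⌊p * N⌋₊ := by exact_mod_cast hf.1
  exact ⟨h1, mul_pos (kap_pos hp hp1) (by linarith)⟩

theorem floor_atTop {p : ℝ} (hp : 0 < p) :
    Tendsto (fun N : ℕ => (⌊p * N⌋₊ : ℝ)) atTop atTop :=
  tendsto_natCast_atTop_atTop.comp
    (tendsto_nat_floor_atTop.comp (Tendsto.const_mul_atTop hp tendsto_natCast_atTop_atTop))

theorem bad_below_shift {p : ℝ} (hp : 0 < p) (hp1 : p < 1) {P : ∀ N : ℕ, Set (Fin N → Fin ⌊p * N⌋₊ → ℝ)}
    (h : Tendsto (fun N : ℕ => (patterns N ⌊p * N⌋₊).real (P N)) atTop (𝓝 0))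
    {Q : ∀ N : ℕ, Set (Fin N → Fin ⌊p * N⌋₊ → ℝ)}
    (hQ : ∀ᶠ N in atTop, Q N ⊆ {g | ¬Below (kap p * N) g} ∪ P N) :
    Tendsto (fun N : ℕ => (patterns N ⌊p * N⌋₊).real (Q N)) atTop (𝓝 0) := by
  refine squeeze_zero' (Eventually.of_forall fun N => measureReal_nonneg) ?_
    (by simpa using (below_prob hp hp1).add h)
  filter_upwards [hQ] with N hN
  have := prob_patterns N ⌊p * N⌋₊
  exact (measureReal_mono hN).trans (measureReal_union_le _ _)

/-- The rate is at least the value at any radius. -/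
theorem lower_event (hS : SphereStmt) (hC : ContStmt) {p θ : ℝ} (hp : 0 < p) (hp1 : p < 1)
    (hθ : 0 < θ) {h : ℝ → ℝ} (hh : IsLink h) {t : ℝ} (ht : 0 < t) {δ : ℝ} (hδ : 0 < δ) :
    Tendsto (fun N : ℕ => (patterns N ⌊p * N⌋₊).real
      {g | ¬Below (kap p * N) g ∨ Phi θ h g < val p⁻¹ θ h t - δ}) atTop (𝓝 0) := by
  set c := t ^ 2 / (2 * θ)
  have hc : 0 < c := by positivity
  obtain ⟨K, hK⟩ := hC p hp hp1 h hh c (max t (2 * c)) hc
    (le_trans (by linarith) (le_max_right _ _))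
  set R := 2 / p
  set ζ := fun η : ℝ => (t + t * η) ^ 2 / (2 * θ) + t * η / 2 - c
  have hlim : Tendsto (fun η : ℝ => K * ζ η + R * (t * η / 2)) (𝓝 0) (𝓝 0) := by
    have : Continuous fun η : ℝ => K * ζ η + R * (t * η / 2) := by simp only [ζ]; fun_prop
    simpa [ζ, c] using this.tendsto 0
  have hlim2 : Tendsto ζ (𝓝 0) (𝓝 0) := by
    have : Continuous ζ := by simp only [ζ]; fun_prop
    simpa [ζ, c] using this.tendsto 0
  have hev : ∀ᶠ η in 𝓝[>] (0 : ℝ), 0 < η ∧ K * ζ η + R * (t * η / 2) < δ / 3 ∧ ζ η < c / 4 := by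
    filter_upwards [self_mem_nhdsWithin,
      nhdsWithin_le_nhds (hlim.eventually (gt_mem_nhds (by linarith : (0 : ℝ) < δ / 3))),
      nhdsWithin_le_nhds (hlim2.eventually (gt_mem_nhds (by linarith : (0 : ℝ) < c / 4)))]
      with η h1 h2 h3 using ⟨h1, h2, h3⟩
  obtain ⟨η, hη, hKη, hζ⟩ := hev.exists
  set c' := (t + t * η) ^ 2 / (2 * θ) + t * η / 2
  have hζ0 : 0 ≤ ζ η := by
    simp only [ζ, c]
    have : t ^ 2 / (2 * θ) ≤ (t + t * η) ^ 2 / (2 * θ) :=
      div_le_div_of_nonneg_right (pow_le_pow_left₀ ht.le (by nlinarith) 2) (by positivity)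
    nlinarith
  have hcont : sphereLim p⁻¹ h t c ≤ sphereLim p⁻¹ h t c' + K * ζ η := by
    have e : c = c' - ζ η := by simp only [ζ, c']; ring
    nth_rewrite 1 [e]
    refine hK t c' (ζ η) ht.le (le_max_left _ _) ?_ ?_ hζ0 (by linarith)
    · linarith
    · refine le_trans ?_ (le_max_right _ _); linarith
  refine bad_below_shift hp hp1
    (hS p hp hp1 h hh t c' ht.le (by linarith) (δ / 3) (by linarith)) ?_
  filter_upwards [floor_facts hp,
    (tendsto_const_nhds (x := Real.log η)).div_atTop (floor_atTop hp) |>.eventually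
      (lt_mem_nhds (by linarith : -(δ / 3) < 0))] with N hf hlog g hg
  by_cases hB : Below (kap p * N) g
  swap
  · exact Or.inl hB
  refine Or.inr ?_
  by_contra hgood
  simp only [Set.mem_ofPred_eq, not_lt] at hgood
  have hgood' := abs_le.1 hgood
  have hlt := hg.resolve_left (not_not.2 hB)
  have : NeZero ⌊p * N⌋₊ := ⟨hf.1.ne'⟩
  have := Phi_lower hθ (ratio_facts hp hp1 hf).2 hh hB hf.2.2 ht hη
  simp only [val] at hlt
  linarith

/-- A crude bound. -/
theorem crude_upper {p θ : ℝ} (hp : 0 < p) (hp1 : p < 1) (hθ : 0 < θ) {h : ℝ → ℝ}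
    (hh : IsLink h) {N : ℕ}
    (hf : 0 < ⌊p * N⌋₊ ∧ (⌊p * N⌋₊ : ℝ) ≤ p * N ∧ (N : ℝ) ≤ 2 / p * ⌊p * N⌋₊)
    {g : Fin N → Fin ⌊p * N⌋₊ → ℝ} (hg : Below (kap p * N) g) :
    Phi θ h g ≤ 2 / p * θ + Real.log (max 1 (√(Real.pi / (kap p / (8 * θ))))) := by
  have : NeZero ⌊p * N⌋₊ := ⟨hf.1.ne'⟩
  have h1 := tail_upper hθ (kap_pos hp hp1) hh hg (ratio_facts hp hp1 hf).1 hf.2.2 0
  have e : {w : Fin ⌊p * N⌋₊ → ℝ | (0 : ℝ) ^ 2 ≤ w ⬝ᵥ w} = Set.univ :=
    Set.eq_univ_of_forall fun w => by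
      simp only [Set.mem_ofPred_eq, zero_pow two_ne_zero]
      exact Finset.sum_nonneg fun i _ => mul_self_nonneg (w i)
  rw [e, setIntegral_univ] at h1
  have h2 := Real.log_le_log (wInt_pos hθ (ratio_facts hp hp1 hf).2 hh hg) h1
  rw [Real.log_mul area_pos.ne' (Real.exp_pos _).ne', Real.log_exp, zero_pow two_ne_zero,
    mul_zero, sub_zero] at h2
  rw [Phi, div_le_iff₀ (by exact_mod_cast hf.1)]
  linarith

theorem radial_bdd (hS : SphereStmt) (hC : ContStmt) {p θ : ℝ} (hp : 0 < p) (hp1 : p < 1)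
    (hθ : 0 < θ) {h : ℝ → ℝ} (hh : IsLink h) :
    BddAbove {v | ∃ t : ℝ, 0 < t ∧ v = val p⁻¹ θ h t} := by
  refine ⟨2 / p * θ + Real.log (max 1 (√(Real.pi / (kap p / (8 * θ))))) + 1, ?_⟩
  rintro v ⟨t, ht, rfl⟩
  have h1 := (lower_event hS hC hp hp1 hθ hh ht one_pos).eventually (gt_mem_nhds one_pos)
  obtain ⟨N, hN, hf⟩ := (h1.and (floor_facts hp)).exists
  have := prob_patterns N ⌊p * N⌋₊
  obtain ⟨g, hg⟩ : ∃ g : Fin N → Fin ⌊p * N⌋₊ → ℝ,
      g ∉ {g | ¬Below (kap p * N) g ∨ Phi θ h g < val p⁻¹ θ h t - 1} := by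
    by_contra hc
    push Not at hc
    rw [Set.eq_univ_of_forall hc, probReal_univ] at hN
    exact lt_irrefl _ hN
  simp only [Set.mem_ofPred_eq, not_or, not_not, not_lt] at hg
  linarith [crude_upper hp hp1 hθ hh hf hg.1, hg.2]

theorem val_le_radial (hS : SphereStmt) (hC : ContStmt) {p θ : ℝ} (hp : 0 < p) (hp1 : p < 1)
    (hθ : 0 < θ) {h : ℝ → ℝ} (hh : IsLink h) {t : ℝ} (ht : 0 < t) :
    val p⁻¹ θ h t ≤ radial p⁻¹ θ h :=
  le_csSup (radial_bdd hS hC hp hp1 hθ hh) ⟨t, ht, rfl⟩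

/-- The rate is at most the radial supremum. -/
theorem upper_event (hS : SphereStmt) (hC : ContStmt) {p θ : ℝ} (hp : 0 < p) (hp1 : p < 1)
    (hθ : 0 < θ) {h : ℝ → ℝ} (hh : IsLink h) {δ : ℝ} (hδ : 0 < δ) :
    Tendsto (fun N : ℕ => (patterns N ⌊p * N⌋₊).real
      {g | ¬Below (kap p * N) g ∨ radial p⁻¹ θ h + δ < Phi θ h g}) atTop (𝓝 0) := by
  set V := radial p⁻¹ θ h
  set R := 2 / p with hRdef
  set C := max 1 (√(Real.pi / (kap p / (8 * θ))))
  set τ := Real.exp (V - R * θ)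
  have hτ : 0 < τ := Real.exp_pos _
  set cT := kap p / (8 * θ)
  have hcT : 0 < cT := by have := kap_pos hp hp1; positivity
  obtain ⟨L, hL, hLτ⟩ := (((Tendsto.const_mul_atTop hcT
    (tendsto_pow_atTop two_ne_zero)).eventually_ge_atTop (R * θ + Real.log C - V)).and
    (eventually_gt_atTop τ)).exists
  set l := τ ^ 2 / (2 * θ) with hldef
  set L' := max L (L ^ 2 / (2 * θ))
  have hl : 0 < l := by positivity
  have hlL : l ≤ L ^ 2 / (2 * θ) :=
    div_le_div_of_nonneg_right (pow_le_pow_left₀ hτ.le hLτ.le 2) (by positivity)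
  obtain ⟨K', hK'⟩ := hC p hp hp1 h hh l L' hl (hlL.trans (le_max_right _ _))
  have hDlim : Tendsto (fun K : ℕ => (L - τ) / K) atTop (𝓝 0) :=
    tendsto_const_div_atTop_nhds_zero_nat _
  have hmix : Tendsto (fun K : ℕ => (L - τ) / K * (1 / τ + |K'| + R)) atTop (𝓝 0) := by
    simpa using hDlim.mul_const (1 / τ + |K'| + R)
  obtain ⟨K, hK0, hKl, hKδ⟩ := ((eventually_gt_atTop 0).and
    ((hDlim.eventually (gt_mem_nhds (by positivity : (0 : ℝ) < l / 2))).and
      (hmix.eventually (gt_mem_nhds (by positivity : (0 : ℝ) < δ / 4))))).exists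
  set D := (L - τ) / K with hDdef
  have hD : 0 < D := div_pos (by linarith) (by exact_mod_cast hK0)
  have hKD : τ + K * D = L := by
    rw [hDdef, mul_div_cancel₀ _ (by exact_mod_cast hK0.ne'), add_sub_cancel]
  set a := fun k : Fin K => τ + (k : ℕ) * D
  set c := fun k : Fin K => a k ^ 2 / (2 * θ) - D / 2
  have ha : ∀ k, τ ≤ a k ∧ a k + D ≤ L := fun k => by
    have h1 : ((k : ℕ) : ℝ) + 1 ≤ K := by exact_mod_cast k.2
    have h0 : (0 : ℝ) ≤ (k : ℕ) * D := by positivity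
    refine ⟨by simp only [a]; linarith, ?_⟩
    simp only [a]
    nlinarith [mul_le_mul_of_nonneg_right h1 hD.le]
  have hc : ∀ k, l ≤ a k ^ 2 / (2 * θ) ∧ a k ^ 2 / (2 * θ) ≤ L' ∧ 0 < c k := fun k => by
    have h1 : l ≤ a k ^ 2 / (2 * θ) :=
      div_le_div_of_nonneg_right (pow_le_pow_left₀ hτ.le (ha k).1 2) (by positivity)
    refine ⟨h1, le_trans (div_le_div_of_nonneg_right (pow_le_pow_left₀
      (hτ.le.trans (ha k).1) (by linarith [(ha k).2]) 2) (by positivity)) (le_max_right _ _), ?_⟩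
    simp only [c]
    linarith
  set bad := fun N : ℕ => ⋃ k : Fin K, {g : Fin N → Fin ⌊p * N⌋₊ → ℝ |
    δ / 4 < |lnZ (pot h (a k) (c k)) g - sphereLim p⁻¹ h (a k) (c k)|}
  have hbad : Tendsto (fun N : ℕ => (patterns N ⌊p * N⌋₊).real (bad N)) atTop (𝓝 0) := by
    refine squeeze_zero (fun N => measureReal_nonneg)
      (fun N => measureReal_iUnion_fintype_le _) ?_
    simpa using tendsto_finsetSum Finset.univ fun k _ =>
      hS p hp hp1 h hh (a k) (c k) (hτ.le.trans (ha k).1) (hc k).2.2 (δ / 4) (by linarith)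
  refine bad_below_shift hp hp1 hbad ?_
  filter_upwards [floor_facts hp,
    (tendsto_const_nhds (x := Real.log (K + 2 : ℝ))).div_atTop (floor_atTop hp) |>.eventually
      (gt_mem_nhds (by linarith : (0 : ℝ) < δ / 4))] with N hf hlog g hg
  by_cases hB : Below (kap p * N) g
  swap
  · exact Or.inl hB
  refine Or.inr ?_
  by_contra hgood
  simp only [bad, Set.mem_iUnion, Set.mem_ofPred_eq, not_exists, not_lt] at hgood
  have hlt := hg.resolve_left (not_not.2 hB)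
  have : NeZero ⌊p * N⌋₊ := ⟨hf.1.ne'⟩
  set n := ⌊p * N⌋₊
  have hnN := (ratio_facts hp hp1 hf).1
  have hmono : ∀ B : ℝ, B ≤ V + δ * (3 / 4) →
      area n * Real.exp (n * B) ≤ area n * Real.exp (n * (V + δ * (3 / 4))) := fun B hB' =>
    mul_le_mul_of_nonneg_left (Real.exp_le_exp.2 (mul_le_mul_of_nonneg_left hB' n.cast_nonneg))
      area_pos.le
  have key := Phi_upper (B := V + δ * (3 / 4)) hθ (ratio_facts hp hp1 hf).2 hh hB hτ.le hD K
    ((shell_small hθ hh hf.2.2 hτ).trans (hmono _ ?_)) (fun k hk => ?_)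
    ((tail_upper hθ (kap_pos hp hp1) hh hB hnN hf.2.2 _).trans (hmono _ ?_))
  · linarith
  · rw [show Real.log τ = V - R * θ from Real.log_exp _]
    linarith
  · have hpos : 0 < a ⟨k, hk⟩ := hτ.trans_le (ha ⟨k, hk⟩).1
    refine (shell_upper hθ hh hf.2.2 hpos hD).trans (hmono _ ?_)
    set A := a ⟨k, hk⟩
    obtain ⟨hc1, hc2, hc3⟩ := hc ⟨k, hk⟩
    have h1 := (abs_le.1 (hgood ⟨k, hk⟩)).2
    have h2 := hK' A (A ^ 2 / (2 * θ)) (D / 2) hpos.le
      ((by linarith [(ha ⟨k, hk⟩).2] : A ≤ L).trans (le_max_left _ _)) hc1 hc2 (by linarith)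
      (by linarith)
    have h3 : Real.log (A + D) ≤ Real.log A + D / τ := by
      have h' := Real.log_le_sub_one_of_pos (show 0 < (A + D) / A by positivity)
      rw [Real.log_div (by positivity) hpos.ne', add_div, div_self hpos.ne'] at h'
      have := div_le_div_of_nonneg_left hD.le hτ (ha ⟨k, hk⟩).1
      linarith
    have h4 := val_le_radial hS hC hp hp1 hθ hh hpos
    simp only [val] at h4
    have h5 : D / τ + K' * (D / 2) + R * (D / 2) ≤ D * (1 / τ + |K'| + R) := by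
      have hR0 : 0 ≤ R := by rw [hRdef]; positivity
      have := mul_le_mul_of_nonneg_right (le_abs_self K') (by linarith : (0 : ℝ) ≤ D / 2)
      have := mul_nonneg hD.le (abs_nonneg K')
      have := mul_nonneg hD.le hR0
      linarith [mul_one_div D τ]
    simp only [c] at h1
    linarith
  · rw [hKD]
    simp only [cT, C, R] at hL ⊢
    linarith

/-- The rate tends to the radial supremum. -/
theorem radial_prob (hS : SphereStmt) (hC : ContStmt) {p θ : ℝ} (hp : 0 < p) (hp1 : p < 1)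
    (hθ : 0 < θ) {h : ℝ → ℝ} (hh : IsLink h) {δ : ℝ} (hδ : 0 < δ) :
    Tendsto (fun N : ℕ => (patterns N ⌊p * N⌋₊).real
      {g | ¬Below (kap p * N) g ∨ δ < |Phi θ h g - radial p⁻¹ θ h|}) atTop (𝓝 0) := by
  obtain ⟨v, ⟨t, ht, rfl⟩, hv⟩ := exists_lt_of_lt_csSup
    (s := {v | ∃ t : ℝ, 0 < t ∧ v = val p⁻¹ θ h t}) ⟨_, 1, one_pos, rfl⟩
    (show radial p⁻¹ θ h - δ / 2 < sSup {v | ∃ t : ℝ, 0 < t ∧ v = val p⁻¹ θ h t} by
      rw [← radial_eq]; linarith)
  refine squeeze_zero (fun N => measureReal_nonneg) (fun N => ?_)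
    (by
      simpa using (lower_event hS hC hp hp1 hθ hh ht (half_pos hδ)).add
        (upper_event hS hC hp hp1 hθ hh hδ))
  have := prob_patterns N ⌊p * N⌋₊
  refine (measureReal_mono fun g hg => ?_).trans (measureReal_union_le _ _)
  rcases hg with hg | hg
  · exact Or.inl (Or.inl hg)
  rcases lt_abs.1 hg with h1 | h1
  · exact Or.inr (Or.inr (by linarith))
  · exact Or.inl (Or.inr (by linarith))

end Vale.Agent.P166.TwoAtom
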