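import Vale.Agent.P166.TwoAtom.Polar
import Vale.Agent.P166.TwoAtom.Edge

/-!
The integral over `ℝ^n` piece by piece: a shell is a spherical perceptron.
-/

noncomputable section

open MeasureTheory ProbabilityTheory Matrix Filter Set
open scoped BigOperators

namespace Vale.Agent.P166.TwoAtom

open Vale.Agent.P157 (sphereLaw)

variable {N n : ℕ}

/-- The exponential rate of the integral. -/
def Phi (θ : ℝ) (h : ℝ → ℝ) (g : Fin N → Fin n → ℝ) : ℝ :=
  (Real.log (wInt θ h g) - Real.log (area n)) / n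

/-- The field of pattern `a`. -/
def fld (g : Fin N → Fin n → ℝ) (x : Fin n → ℝ) (a : Fin N) : ℝ :=
  (∑ i, g a i * x i) / √n

theorem dot_scaled (g : Fin N → Fin n → ℝ) (x : Fin n → ℝ) (t : ℝ) (a : Fin N) :
    g a ⬝ᵥ ((t / √n) • x) = t * fld g x a := by
  rw [dotProduct_smul, smul_eq_mul, dotProduct, fld, div_mul_eq_mul_div, mul_div_assoc]

theorem continuous_link {h : ℝ → ℝ} (hh : IsLink h) : Continuous h :=
  (LipschitzWith.of_dist_le' (K := 1) fun x y => by
    simpa [Real.dist_eq] using hh.lip x y).continuous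

theorem continuous_fweight {h : ℝ → ℝ} (hh : IsLink h) (a c : ℝ) (g : Fin N → Fin n → ℝ) :
    Continuous fun x => Real.exp (∑ b, pot h a c (fld g x b)) := by
  have := continuous_link hh
  unfold pot fld
  fun_prop

theorem integral_fweight_pos [NeZero n] {h : ℝ → ℝ} (hh : IsLink h) (a c : ℝ)
    (g : Fin N → Fin n → ℝ) :
    0 < ∫ x, Real.exp (∑ b, pot h a c (fld g x b)) ∂sphereLaw n := by
  have hG := continuous_fweight hh a c g
  rw [integral_sphereLaw hG]
  refine mul_pos (inv_pos.2 area_pos) ?_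
  set F := fun u : Metric.sphere (0 : EuclideanSpace ℝ (Fin n)) 1 =>
    Real.exp (∑ b, pot h a c (fld g (√n • (u.1 : EuclideanSpace ℝ (Fin n)).ofLp) b)) with hF
  have hc : Continuous F := hG.comp (g := fun x => Real.exp (∑ b, pot h a c (fld g x b)))
    (by fun_prop)
  obtain ⟨C, hC⟩ := isCompact_univ.exists_bound_of_continuousOn hc.continuousOn
  have hi : Integrable F (sig n) :=
    Integrable.of_bound hc.aestronglyMeasurable C (Eventually.of_forall fun u => hC u trivial)
  refine (integral_pos_iff_support_of_nonneg (fun u => (Real.exp_pos _).le) hi).2 ?_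
  rw [show Function.support F = univ from Set.eq_univ_of_forall fun u => (Real.exp_pos _).ne']
  exact (ENNReal.toReal_pos_iff.1 (area_pos (n := n))).1

theorem lnZ_exp [NeZero n] {h : ℝ → ℝ} (hh : IsLink h) (a c : ℝ) (g : Fin N → Fin n → ℝ) :
    ∫ x, Real.exp (∑ b, pot h a c (fld g x b)) ∂sphereLaw n =
      Real.exp (n * lnZ (pot h a c) g) := by
  have hn : (n : ℝ) ≠ 0 := by exact_mod_cast NeZero.ne n
  rw [lnZ, ← mul_assoc, mul_one_div_cancel hn, one_mul]
  exact (Real.exp_log (integral_fweight_pos hh a c g)).symm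

theorem abs_le_half_sq (z : ℝ) : |z| ≤ (1 + z ^ 2) / 2 := by
  nlinarith [sq_nonneg (|z| - 1), sq_abs z]

theorem link_shift {h : ℝ → ℝ} (hh : IsLink h) {s t D : ℝ} (hst : |s - t| ≤ D) (z : ℝ) :
    |h (s * z) - h (t * z)| ≤ D / 2 * z ^ 2 + D / 2 := by
  refine (hh.lip _ _).trans ?_
  rw [← sub_mul, abs_mul]
  have := mul_le_mul hst (abs_le_half_sq z) (abs_nonneg z) ((abs_nonneg _).trans hst)
  linarith

theorem pot_upper {h : ℝ → ℝ} (hh : IsLink h) {θ a t D : ℝ} (hθ : 0 < θ) (ha : 0 ≤ a)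
    (hat : a ≤ t) (hD : t ≤ a + D) (z : ℝ) :
    pot h 1 (1 / (2 * θ)) (t * z) ≤ pot h a (a ^ 2 / (2 * θ) - D / 2) z + D / 2 := by
  have h1 := (abs_le.1 (link_shift hh (s := t) (t := a) (D := D) (by
    rw [abs_of_nonneg (by linarith)]; linarith) z)).2
  have h2 : a ^ 2 / (2 * θ) * z ^ 2 ≤ t ^ 2 / (2 * θ) * z ^ 2 :=
    mul_le_mul_of_nonneg_right (div_le_div_of_nonneg_right (pow_le_pow_left₀ ha hat 2)
      (by positivity)) (sq_nonneg z)
  have e : 1 / (2 * θ) * (t * z) ^ 2 = t ^ 2 / (2 * θ) * z ^ 2 := by ring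
  unfold pot
  rw [one_mul, e]
  linarith [sub_mul (a ^ 2 / (2 * θ)) (D / 2) (z ^ 2)]

theorem pot_lower {h : ℝ → ℝ} (hh : IsLink h) {θ a t D : ℝ} (hθ : 0 < θ) (ha : 0 ≤ a)
    (hat : a ≤ t) (hD : t ≤ a + D) (z : ℝ) :
    pot h a ((a + D) ^ 2 / (2 * θ) + D / 2) z - D / 2 ≤ pot h 1 (1 / (2 * θ)) (t * z) := by
  have h1 := (abs_le.1 (link_shift hh (s := t) (t := a) (D := D) (by
    rw [abs_of_nonneg (by linarith)]; linarith) z)).1
  have h2 : t ^ 2 / (2 * θ) * z ^ 2 ≤ (a + D) ^ 2 / (2 * θ) * z ^ 2 :=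
    mul_le_mul_of_nonneg_right (div_le_div_of_nonneg_right (pow_le_pow_left₀ (ha.trans hat) hD 2)
      (by positivity)) (sq_nonneg z)
  have e : 1 / (2 * θ) * (t * z) ^ 2 = t ^ 2 / (2 * θ) * z ^ 2 := by ring
  unfold pot
  rw [one_mul, e]
  linarith [add_mul ((a + D) ^ 2 / (2 * θ)) (D / 2) (z ^ 2)]

variable {θ κ R : ℝ} {h : ℝ → ℝ} {g : Fin N → Fin n → ℝ}

/-- One shell from below. -/
theorem Phi_lower [NeZero n] (hθ : 0 < θ) (hκ : 0 < κ) (hh : IsLink h) (hg : Below κ g)
    (hR : (N : ℝ) ≤ R * n) {t η : ℝ} (ht : 0 < t) (hη : 0 < η) :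
    Real.log t + Real.log η / n +
        lnZ (pot h t ((t + t * η) ^ 2 / (2 * θ) + t * η / 2)) g - R * (t * η / 2) ≤ Phi θ h g := by
  set D := t * η
  set c := (t + D) ^ 2 / (2 * θ) + D / 2
  have hn : (0 : ℝ) < n := by exact_mod_cast NeZero.pos n
  have hD : 0 < D := mul_pos ht hη
  set G := fun x : Fin n → ℝ =>
    Real.exp (∑ b, pot h t c (fld g x b)) * Real.exp (-(N * (D / 2)))
  have h1 := shell_ge (continuous_wWeight θ hh g)
    ((continuous_fweight hh t c g).mul_const _ : Continuous G) ht.le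
    (by linarith : t ≤ t + D) fun s x hs hs' => by
      simp only [wWeight, dot_scaled, ← Real.exp_add]
      refine Real.exp_le_exp.2 ?_
      have := Finset.sum_le_sum fun b (_ : b ∈ Finset.univ) =>
        pot_lower hh hθ ht.le hs hs'.le (fld g x b)
      rw [Finset.sum_sub_distrib, Finset.sum_const, Finset.card_univ, Fintype.card_fin,
        nsmul_eq_mul] at this
      simpa [c, sub_eq_add_neg] using this
  have h2 : ∫ w in shell n t (t + D), wWeight θ h g w ≤ wInt θ h g :=
    setIntegral_le_integral (integrable_wWeight hθ hκ hh hg)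
      (Eventually.of_forall fun w => (wWeight_pos θ h g w).le)
  rw [integral_mul_const, lnZ_exp hh] at h1
  have hb : t ^ n * η ≤ ((t + D) ^ n - t ^ n) / n := by
    rw [le_div_iff₀ hn]
    have e : t + D = t * (1 + η) := by simp only [D]; ring
    have := one_add_mul_le_pow (a := η) (by linarith) n
    rw [e, mul_pow]
    nlinarith [pow_pos ht n]
  have h3 : area n * (t ^ n * η) * (Real.exp (n * lnZ (pot h t c) g) *
      Real.exp (-(N * (D / 2)))) ≤ wInt θ h g :=
    le_trans (mul_le_mul_of_nonneg_right (mul_le_mul_of_nonneg_left hb area_pos.le)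
      (by positivity)) (h1.trans h2)
  have hpos : 0 < area n * (t ^ n * η) := mul_pos area_pos (by positivity)
  have h4 := Real.log_le_log (by positivity) h3
  rw [Real.log_mul hpos.ne' (by positivity), Real.log_mul area_pos.ne' (by positivity),
    Real.log_mul (by positivity) hη.ne', Real.log_pow, ← Real.exp_add, Real.log_exp] at h4
  rw [Phi, le_div_iff₀ hn]
  have h5 : (N : ℝ) * (D / 2) ≤ R * n * (D / 2) := mul_le_mul_of_nonneg_right hR (by positivity)
  have h6 : Real.log η / n * n = Real.log η := div_mul_cancel₀ _ hn.ne'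
  nlinarith [h6]

/-- A shell from above. -/
theorem shell_upper [NeZero n] (hθ : 0 < θ) (hh : IsLink h)
    (hR : (N : ℝ) ≤ R * n) {a D : ℝ} (ha : 0 < a) (hD : 0 < D) :
    ∫ w in shell n a (a + D), wWeight θ h g w ≤ area n * Real.exp (n *
      (Real.log (a + D) + lnZ (pot h a (a ^ 2 / (2 * θ) - D / 2)) g + R * (D / 2))) := by
  set c := a ^ 2 / (2 * θ) - D / 2
  have hn : (1 : ℝ) ≤ n := by exact_mod_cast NeZero.pos n
  set G := fun x : Fin n → ℝ =>
    Real.exp (∑ b, pot h a c (fld g x b)) * Real.exp (N * (D / 2))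
  refine (shell_le (continuous_wWeight θ hh g)
    ((continuous_fweight hh a c g).mul_const _ : Continuous G) ha.le (by linarith)
    fun s x hs hs' => ?_).trans ?_
  · simp only [wWeight, dot_scaled, ← Real.exp_add]
    refine Real.exp_le_exp.2 ?_
    have := Finset.sum_le_sum fun b (_ : b ∈ Finset.univ) =>
      pot_upper hh hθ ha.le hs hs'.le (fld g x b)
    rw [Finset.sum_add_distrib, Finset.sum_const, Finset.card_univ, Fintype.card_fin,
      nsmul_eq_mul] at this
    simpa [c] using this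
  rw [integral_mul_const, lnZ_exp hh, ← Real.exp_add, mul_assoc]
  refine mul_le_mul_of_nonneg_left ?_ area_pos.le
  have he : Real.exp (n * Real.log (a + D)) = (a + D) ^ n := by
    rw [Real.exp_nat_mul, Real.exp_log (by linarith)]
  rw [mul_add, mul_add, Real.exp_add _ ((n : ℝ) * (R * (D / 2))), Real.exp_add, Real.exp_add, he,
    ← mul_assoc]
  have hb : ((a + D) ^ n - a ^ n) / n ≤ (a + D) ^ n := by
    rw [div_le_iff₀ (by linarith)]
    nlinarith [pow_pos ha n, pow_pos (show 0 < a + D by linarith) n]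
  have h5 : (N : ℝ) * (D / 2) ≤ n * (R * (D / 2)) := by
    have := mul_le_mul_of_nonneg_right hR (show 0 ≤ D / 2 by positivity)
    linarith
  refine mul_le_mul (mul_le_mul_of_nonneg_right hb (Real.exp_pos _).le) (Real.exp_le_exp.2 h5)
    (Real.exp_pos _).le (by positivity)

/-- The small ball from above. -/
theorem shell_small [NeZero n] (hθ : 0 < θ) (hh : IsLink h) (hR : (N : ℝ) ≤ R * n) {τ : ℝ}
    (hτ : 0 < τ) :
    ∫ w in shell n 0 τ, wWeight θ h g w ≤ area n * Real.exp (n * (Real.log τ + R * θ)) := by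
  have hn : (1 : ℝ) ≤ n := by exact_mod_cast NeZero.pos n
  refine (shell_le (continuous_wWeight θ hh g) (continuous_const (y := Real.exp (N * θ)))
    le_rfl hτ.le fun s x _ _ => Real.exp_le_exp.2 ?_).trans ?_
  · refine (Finset.sum_le_sum fun b _ => (pot_le hθ hh _).trans
      (sub_le_self _ (by positivity))).trans_eq ?_
    simp
  rw [integral_sphereLaw continuous_const, integral_const, smul_eq_mul, ← area, ← mul_assoc,
    mul_assoc _ (area n)⁻¹ (area n * _), inv_mul_cancel_left₀ area_pos.ne', mul_assoc]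
  refine mul_le_mul_of_nonneg_left ?_ area_pos.le
  have he : Real.exp (n * Real.log τ) = τ ^ n := by rw [Real.exp_nat_mul, Real.exp_log hτ]
  rw [zero_pow (NeZero.ne n), sub_zero, mul_add, Real.exp_add, he]
  refine mul_le_mul (div_le_self (by positivity) hn) (Real.exp_le_exp.2 ?_) (by positivity)
    (by positivity)
  have := mul_le_mul_of_nonneg_right hR hθ.le
  linarith

/-- The tail from above. -/
theorem tail_upper [NeZero n] (hθ : 0 < θ) {k : ℝ} (hk : 0 < k) (hh : IsLink h)
    (hg : Below (k * N) g) (hnN : (n : ℝ) ≤ N) (hR : (N : ℝ) ≤ R * n) (L : ℝ) :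
    ∫ w in {w : Fin n → ℝ | L ^ 2 ≤ w ⬝ᵥ w}, wWeight θ h g w ≤ area n * Real.exp (n *
      (R * θ - k / (8 * θ) * L ^ 2 + Real.log (max 1 (√(Real.pi / (k / (8 * θ))))))) := by
  set c := k / (8 * θ) with hc
  have hc0 : 0 < c := by positivity
  have hn : (1 : ℝ) ≤ n := by exact_mod_cast NeZero.pos n
  have hN : (0 : ℝ) < N := by linarith
  have hκ : 0 < k * N := mul_pos hk hN
  have hm : MeasurableSet {w : Fin n → ℝ | L ^ 2 ≤ w ⬝ᵥ w} := measurableSet_le measurable_const
    (show Continuous fun w : Fin n → ℝ => w ⬝ᵥ w by unfold dotProduct; fun_prop).measurable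
  have hI := ((integrable_gauss_dot (n := n) (c := c * n) (by positivity)).const_mul
    (Real.exp (n * (R * θ - c * L ^ 2))))
  refine (setIntegral_mono_on (integrable_wWeight hθ hκ hh hg).integrableOn hI.integrableOn hm
    fun w hw => ?_).trans ?_
  · refine (wWeight_le hθ hh hg w).trans ?_
    rw [← Real.exp_add]
    refine Real.exp_le_exp.2 ?_
    have hwN : (n : ℝ) * (w ⬝ᵥ w) ≤ N * (w ⬝ᵥ w) :=
      mul_le_mul_of_nonneg_right hnN (Finset.sum_nonneg fun i _ => mul_self_nonneg (w i))
    have h1 : L ^ 2 ≤ w ⬝ᵥ w := hw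
    have e : k * N / (4 * θ) = 2 * c * N := by rw [hc]; field_simp; ring
    rw [e]
    have := mul_le_mul_of_nonneg_left hwN hc0.le
    have := mul_le_mul_of_nonneg_left h1 (mul_nonneg hc0.le (by linarith : (0 : ℝ) ≤ n))
    have := mul_le_mul_of_nonneg_right hR hθ.le
    linarith
  refine (setIntegral_le_integral hI (Eventually.of_forall fun w =>
    mul_nonneg (Real.exp_pos _).le (Real.exp_pos _).le)).trans ?_
  rw [integral_const_mul]
  refine (mul_le_mul_of_nonneg_left (gauss_area hc0) (Real.exp_pos _).le).trans_eq ?_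
  rw [mul_add (n : ℝ), Real.exp_add, Real.exp_nat_mul (Real.log _),
    Real.exp_log (lt_of_lt_of_le one_pos (le_max_left _ _))]
  ring

/-- All pieces together. -/
theorem Phi_upper [NeZero n] (hθ : 0 < θ) (hκ : 0 < κ) (hh : IsLink h) (hg : Below κ g)
    {τ D B : ℝ} (hτ : 0 ≤ τ) (hD : 0 < D) (K : ℕ)
    (hs : ∫ w in shell n 0 τ, wWeight θ h g w ≤ area n * Real.exp (n * B))
    (hm : ∀ k < K, ∫ w in shell n (τ + k * D) (τ + k * D + D), wWeight θ h g w ≤
      area n * Real.exp (n * B))
    (ht : ∫ w in {w : Fin n → ℝ | (τ + K * D) ^ 2 ≤ w ⬝ᵥ w}, wWeight θ h g w ≤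
      area n * Real.exp (n * B)) :
    Phi θ h g ≤ B + Real.log (K + 2 : ℝ) / n := by
  have hn : (0 : ℝ) < n := by exact_mod_cast NeZero.pos n
  set F := wWeight θ h g
  have hI : Integrable F := integrable_wWeight hθ hκ hh hg
  set S₀ := shell n 0 τ
  set S := fun k : ℕ => shell n (τ + k * D) (τ + k * D + D)
  set T := {w : Fin n → ℝ | (τ + K * D) ^ 2 ≤ w ⬝ᵥ w}
  have hTm : MeasurableSet T := measurableSet_le measurable_const
    (show Continuous fun w : Fin n → ℝ => w ⬝ᵥ w by unfold dotProduct; fun_prop).measurable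
  have hcover : ∀ w, F w ≤ S₀.indicator F w + ∑ k ∈ Finset.range K, (S k).indicator F w +
      T.indicator F w := by
    intro w
    have h0 : ∀ s : Set (Fin n → ℝ), 0 ≤ s.indicator F w := fun s =>
      indicator_nonneg (fun x _ => (wWeight_pos θ h g x).le) w
    have hsum : 0 ≤ ∑ k ∈ Finset.range K, (S k).indicator F w := Finset.sum_nonneg fun k _ => h0 _
    have hww : 0 ≤ w ⬝ᵥ w := Finset.sum_nonneg fun i _ => mul_self_nonneg (w i)
    by_cases hA : w ∈ S₀
    · rw [indicator_of_mem hA]; linarith [h0 T]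
    by_cases hB : w ∈ T
    · rw [indicator_of_mem hB]; linarith [h0 S₀]
    have hA' : τ ^ 2 ≤ w ⬝ᵥ w := by
      by_contra hc
      exact hA ⟨by rw [zero_pow two_ne_zero]; exact hww, not_le.1 hc⟩
    have hB' : w ⬝ᵥ w < (τ + K * D) ^ 2 := not_le.1 hB
    set s := √(w ⬝ᵥ w)
    have hs1 : τ ≤ s := Real.le_sqrt_of_sq_le hA'
    have hs2 : s < τ + K * D := (Real.sqrt_lt' (lt_of_le_of_lt (Real.sqrt_nonneg _)
      (by
        have h' := Real.sqrt_lt_sqrt hww hB'
        rwa [Real.sqrt_sq (by positivity)] at h'))).2 hB'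
    set k := ⌊(s - τ) / D⌋₊
    have hk1 : (k : ℝ) * D ≤ s - τ :=
      (le_div_iff₀ hD).1 (Nat.floor_le (div_nonneg (by linarith) hD.le))
    have hk2 : s - τ < ((k : ℝ) + 1) * D := (div_lt_iff₀ hD).1 (Nat.lt_floor_add_one _)
    have hkK : k ∈ Finset.range K := Finset.mem_range.2 ((Nat.floor_lt' (fun hK => by
      simp [hK] at hs2; linarith)).2 ((div_lt_iff₀ hD).2 (by linarith)))
    have hmem : w ∈ S k := by
      have e := Real.sq_sqrt hww
      constructor
      · rw [← e]; exact pow_le_pow_left₀ (by positivity) (by linarith) 2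
      · rw [← e]; exact pow_lt_pow_left₀ (by linarith) (Real.sqrt_nonneg _) two_ne_zero
    have := Finset.single_le_sum (f := fun k => (S k).indicator F w) (fun k _ => h0 _) hkK
    simp only [indicator_of_mem hmem] at this
    linarith [h0 S₀, h0 T]
  have hi : ∀ s, MeasurableSet s → Integrable (s.indicator F) := fun s hs => hI.indicator hs
  have hle : wInt θ h g ≤ area n * Real.exp (n * B) * (K + 2 : ℝ) := by
    refine (integral_mono hI (((hi _ (measurableSet_shell _ _)).add
      (integrable_finsetSum _ fun k _ => hi _ (measurableSet_shell _ _))).add (hi _ hTm))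
      hcover).trans ?_
    simp only [Pi.add_apply]
    rw [integral_add ((hi _ (measurableSet_shell _ _)).fun_add
        (integrable_finsetSum _ fun k _ => hi _ (measurableSet_shell _ _))) (hi _ hTm),
      integral_add (hi _ (measurableSet_shell _ _))
        (integrable_finsetSum _ fun k _ => hi _ (measurableSet_shell _ _)),
      integral_finsetSum _ fun k _ => hi _ (measurableSet_shell _ _),
      integral_indicator (measurableSet_shell _ _), integral_indicator hTm]
    simp only [integral_indicator (measurableSet_shell _ _)]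
    have := Finset.sum_le_sum fun k (hk : k ∈ Finset.range K) => hm k (Finset.mem_range.1 hk)
    rw [Finset.sum_const, Finset.card_range, nsmul_eq_mul] at this
    linarith
  have h4 := Real.log_le_log (wInt_pos hθ hκ hh hg) hle
  rw [Real.log_mul (mul_pos area_pos (Real.exp_pos _)).ne' (by positivity),
    Real.log_mul area_pos.ne' (Real.exp_pos _).ne', Real.log_exp] at h4
  rw [Phi, div_le_iff₀ hn, add_mul, div_mul_cancel₀ _ hn.ne']
  linarith

end Vale.Agent.P166.TwoAtom
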