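import Vale.Agent.P166.TwoAtom.Statements
import Vale.Agent.P157.Full.Sphere.Final
import Vale.Agent.P157.RSPattern
import Vale.Agent.P168.Limit.ToolkitES

/-!
The spherical perceptron with the unbounded potential `h(a z) - c z²`: its log-partition function
converges in probability to `sphereLim`, which is Lipschitz in the curvature.

Cutting the potential at `-T` costs at most `(N/n) E[(cut f - f)(Z)]`: where the cut acts the weight
is `e^{-T}`, the smallest possible, so by Jensen one pattern can be integrated out.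
-/

noncomputable section

open MeasureTheory ProbabilityTheory Filter
open scoped BigOperators Topology ENNReal

namespace Vale.Agent.P166.TwoAtom

open Vale.Agent.P157 Vale.Agent.P157.Parisi.Full
open Vale.Agent.P157.Parisi.Full.Spherical (sphereValues sphere_formula)
open Vale.Agent.P157.Parisi.Sphere.Up (isProb_sphere ae_sphere)

namespace SphereLim

/-! ### log-integrals of exponentials of bounded functions -/

section LogInt

variable {X : Type*} [MeasurableSpace X] {μ : Measure X} {F G : X → ℝ} {K : ℝ}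

lemma integrable_exp_of_le [IsFiniteMeasure μ] (hF : Measurable F) (hK : ∀ᵐ x ∂μ, F x ≤ K) :
    Integrable (fun x => Real.exp (F x)) μ :=
  Integrable.of_bound hF.exp.aestronglyMeasurable (Real.exp K) <| hK.mono fun x hx => by
    rw [Real.norm_eq_abs, Real.abs_exp]; exact Real.exp_le_exp.2 hx

lemma logInt_mono [IsFiniteMeasure μ] [NeZero μ] (hF : Measurable F) (hG : Measurable G)
    {K' : ℝ} (hGK : ∀ᵐ x ∂μ, G x ≤ K') (h : ∀ᵐ x ∂μ, F x ≤ G x + K) :
    Real.log (∫ x, Real.exp (F x) ∂μ) ≤ Real.log (∫ x, Real.exp (G x) ∂μ) + K := by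
  have hiG := integrable_exp_of_le hG hGK
  have hiF : Integrable (fun x => Real.exp (F x)) μ := integrable_exp_of_le (K := K' + K) hF (by
    filter_upwards [hGK, h] with x h1 h2; linarith)
  rw [← Real.log_exp K, ← Real.log_mul (integral_exp_pos hiG).ne' (Real.exp_pos K).ne',
    ← integral_mul_const]
  refine Real.log_le_log (integral_exp_pos hiF) (integral_mono_ae hiF (hiG.mul_const _) ?_)
  filter_upwards [h] with x hx
  rw [← Real.exp_add]
  exact Real.exp_le_exp.2 hx

/-- Jensen: changing the exponent costs at most its mean under the Gibbs law. -/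
lemma logInt_ge [IsFiniteMeasure μ] [NeZero μ] (hF : Measurable F) (hG : Measurable G)
    (hFK : ∀ᵐ x ∂μ, |F x| ≤ K) (hGK : ∀ᵐ x ∂μ, |G x| ≤ K) :
    Real.log (∫ x, Real.exp (G x) ∂μ) +
        (∫ x, (F x - G x) * Real.exp (G x) ∂μ) / ∫ x, Real.exp (G x) ∂μ ≤
      Real.log (∫ x, Real.exp (F x) ∂μ) := by
  have hiG := integrable_exp_of_le hG (hGK.mono fun x hx => (abs_le.1 hx).2)
  have hiF := integrable_exp_of_le hF (hFK.mono fun x hx => (abs_le.1 hx).2)
  have hiD : Integrable (fun x => (F x - G x) * Real.exp (G x)) μ := by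
    refine Integrable.of_bound ((hF.sub hG).mul hG.exp).aestronglyMeasurable
      (2 * K * Real.exp K) ?_
    filter_upwards [hFK, hGK] with x h1 h2
    rw [Real.norm_eq_abs, abs_mul, Real.abs_exp]
    refine mul_le_mul ?_ (Real.exp_le_exp.2 (abs_le.1 h2).2) (Real.exp_pos _).le
      (by linarith [(abs_nonneg (F x)).trans h1])
    linarith [abs_sub (F x) (G x)]
  have hI : 0 < ∫ x, Real.exp (G x) ∂μ := integral_exp_pos hiG
  set m := (∫ x, (F x - G x) * Real.exp (G x) ∂μ) / ∫ x, Real.exp (G x) ∂μ with hm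
  rw [← Real.log_exp m, ← Real.log_mul hI.ne' (Real.exp_pos _).ne']
  refine Real.log_le_log (by positivity) ?_
  have hpt : ∀ x, Real.exp m * ((F x - G x) * Real.exp (G x) + (1 - m) * Real.exp (G x)) ≤
      Real.exp (F x) := by
    intro x
    have h1 := mul_le_mul_of_nonneg_left (Real.add_one_le_exp (F x - G x - m))
      (Real.exp_pos (G x + m)).le
    rw [← Real.exp_add, show G x + m + (F x - G x - m) = F x by ring, Real.exp_add] at h1
    linarith
  have h2 := integral_mono ((hiD.add (hiG.const_mul (1 - m))).const_mul (Real.exp m)) hiF hpt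
  rw [integral_const_mul, integral_add' hiD (hiG.const_mul _), integral_const_mul] at h2
  have e : (∫ x, (F x - G x) * Real.exp (G x) ∂μ) = m * ∫ x, Real.exp (G x) ∂μ := by
    rw [hm, div_mul_cancel₀ _ hI.ne']
  rw [e] at h2
  linarith

end LogInt

/-! ### fields and energies -/

/-- The field of the pattern `v` at `x`. -/
def hd {n : ℕ} (v x : Fin n → ℝ) : ℝ := (∑ i, v i * x i) / Real.sqrt n

/-- The energy of `x`. -/
def En {N n : ℕ} (f : ℝ → ℝ) (g : Fin N → Fin n → ℝ) (x : Fin n → ℝ) : ℝ := ∑ a, f (hd (g a) x)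

/-- The partition function. -/
def Zp {N n : ℕ} (f : ℝ → ℝ) (g : Fin N → Fin n → ℝ) : ℝ :=
  ∫ x, Real.exp (En f g x) ∂sphereLaw n

lemma lnZ_eq {N n : ℕ} (f : ℝ → ℝ) (g : Fin N → Fin n → ℝ) :
    lnZ f g = 1 / (n : ℝ) * Real.log (Zp f g) := rfl

variable {N n : ℕ} {f : ℝ → ℝ}

lemma measurable_hd : Measurable fun p : (Fin n → ℝ) × (Fin n → ℝ) => hd p.1 p.2 := by
  unfold hd; fun_prop

lemma measurable_hd' (v : Fin n → ℝ) : Measurable (hd v) := by unfold hd; fun_prop

lemma measurable_En (hf : Measurable f) :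
    Measurable fun p : (Fin N → Fin n → ℝ) × (Fin n → ℝ) => En f p.1 p.2 := by
  refine Finset.measurable_sum _ fun a _ => ?_
  have h : Measurable fun p : (Fin N → Fin n → ℝ) × (Fin n → ℝ) => (p.1 a, p.2) :=
    ((measurable_pi_apply a).comp measurable_fst).prodMk measurable_snd
  exact hf.comp (measurable_hd.comp h)

lemma measurable_En' (hf : Measurable f) (g : Fin N → Fin n → ℝ) : Measurable (En f g) :=
  Finset.measurable_sum _ fun a _ => hf.comp (measurable_hd' (g a))

lemma ae_sq_sum (hn : 0 < n) : ∀ᵐ x ∂sphereLaw n, ∑ i, x i ^ 2 = (n : ℝ) := by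
  filter_upwards [ae_sphere hn] with x hx
  have hn' : (0 : ℝ) < n := by exact_mod_cast hn
  have h := hx.2
  simp only [div_pow, Real.sq_sqrt hn'.le, ← Finset.sum_div] at h
  rwa [div_eq_one_iff_eq hn'.ne'] at h

lemma ae_hd_le (hn : 0 < n) : ∀ᵐ x ∂sphereLaw n, ∀ v : Fin n → ℝ, hd v x ^ 2 ≤ ∑ i, v i ^ 2 := by
  filter_upwards [ae_sq_sum hn] with x hx v
  have hn' : (0 : ℝ) < n := by exact_mod_cast hn
  rw [hd, div_pow, Real.sq_sqrt hn'.le, div_le_iff₀ hn', ← hx]
  exact Finset.sum_mul_sq_le_sq_mul_sq Finset.univ v x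

/-- The pattern part of a row. -/
def rowSq (g : Fin N → Fin n → ℝ) : ℝ := ∑ a, ∑ i, g a i ^ 2

lemma rowSq_nonneg (g : Fin N → Fin n → ℝ) : 0 ≤ rowSq g :=
  Finset.sum_nonneg fun _ _ => Finset.sum_nonneg fun _ _ => sq_nonneg _

lemma row_le (g : Fin N → Fin n → ℝ) (a : Fin N) : ∑ i, g a i ^ 2 ≤ rowSq g :=
  Finset.single_le_sum (f := fun a => ∑ i, g a i ^ 2)
    (fun _ _ => Finset.sum_nonneg fun _ _ => sq_nonneg _) (Finset.mem_univ a)

/-- Quadratic growth. -/
def Quad (C : ℝ) (f : ℝ → ℝ) : Prop := Measurable f ∧ ∀ z, |f z| ≤ C * (1 + z ^ 2)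

lemma Quad.nonneg {C : ℝ} (hf : Quad C f) : 0 ≤ C := by
  have := hf.2 0
  norm_num at this
  exact (abs_nonneg _).trans this

lemma ae_En_le {C : ℝ} (hn : 0 < n) (hf : Quad C f) (g : Fin N → Fin n → ℝ) :
    ∀ᵐ x ∂sphereLaw n, |En f g x| ≤ N * (C * (1 + rowSq g)) := by
  filter_upwards [ae_hd_le hn] with x hx
  refine (Finset.abs_sum_le_sum_abs _ _).trans
    ((Finset.sum_le_card_nsmul _ _ (C * (1 + rowSq g)) fun a _ => ?_).trans_eq ?_)
  · exact (hf.2 _).trans (mul_le_mul_of_nonneg_left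
      (by linarith [(hx (g a)).trans (row_le g a)]) hf.nonneg)
  · rw [Finset.card_univ, Fintype.card_fin, nsmul_eq_mul]

lemma neZero_sphere (hn : 0 < n) : NeZero (sphereLaw n) :=
  have := isProb_sphere hn
  ⟨IsProbabilityMeasure.ne_zero _⟩

lemma measurable_lnZ (hn : 0 < n) (hf : Measurable f) :
    Measurable fun g : Fin N → Fin n → ℝ => lnZ f g := by
  have := isProb_sphere hn
  have h : Measurable fun g : Fin N → Fin n → ℝ => Zp f g :=
    ((measurable_En hf).exp.stronglyMeasurable.integral_prod_right').measurable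
  simp only [lnZ_eq]
  exact h.log.const_mul _

lemma lnZ_mono {C D : ℝ} {f' : ℝ → ℝ} (hn : 0 < n) (hf : Quad C f) (hf' : Quad D f')
    (h : ∀ z, f z ≤ f' z) (g : Fin N → Fin n → ℝ) : lnZ f g ≤ lnZ f' g := by
  have := isProb_sphere hn
  have := neZero_sphere hn
  have h' := logInt_mono (K := 0) (measurable_En' hf.1 g) (measurable_En' hf'.1 g)
    ((ae_En_le hn hf' g).mono fun x hx => (abs_le.1 hx).2)
    (ae_of_all _ fun x => by simpa [En] using Finset.sum_le_sum fun a _ => h (hd (g a) x))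
  rw [add_zero] at h'
  exact mul_le_mul_of_nonneg_left h' (by positivity)

lemma abs_lnZ_le {C : ℝ} (hn : 0 < n) (hf : Quad C f) (g : Fin N → Fin n → ℝ) :
    |lnZ f g| ≤ N * (C * (1 + rowSq g)) := by
  have := isProb_sphere hn
  have := neZero_sphere hn
  set K := (N : ℝ) * (C * (1 + rowSq g))
  have hz : Measurable fun _ : Fin n → ℝ => (0 : ℝ) := measurable_const
  have hF := measurable_En' hf.1 g
  have hb := ae_En_le hn hf g
  have h1 := logInt_mono (K := K) hF hz (ae_of_all _ fun _ => le_refl (0 : ℝ))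
    (hb.mono fun x hx => by simpa using (abs_le.1 hx).2)
  have h2 := logInt_mono (K := K) hz hF (hb.mono fun x hx => (abs_le.1 hx).2)
    (hb.mono fun x hx => by linarith [(abs_le.1 hx).1])
  simp only [Real.exp_zero, integral_const, probReal_univ, one_smul, Real.log_one] at h1 h2
  have hl : |Real.log (Zp f g)| ≤ K := abs_le.2 ⟨by unfold Zp; linarith, by unfold Zp; linarith⟩
  have hn1 : (1 : ℝ) ≤ n := by exact_mod_cast hn
  rw [lnZ_eq, abs_mul, abs_of_nonneg (by positivity : (0 : ℝ) ≤ 1 / (n : ℝ))]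
  exact (mul_le_of_le_one_left (abs_nonneg _) (by rw [div_le_one (by positivity)]; exact hn1)).trans hl

lemma integrable_rowSq : Integrable (rowSq (N := N) (n := n)) (patterns N n) := by
  refine integrable_finsetSum _ fun a _ => integrable_finsetSum _ fun i _ => ?_
  have h1 : Integrable (fun z : ℝ => z ^ 2) (gaussianReal 0 1) :=
    (IsGaussian.memLp_two_id (μ := gaussianReal 0 1)).integrable_sq
  have h2 : Integrable (fun v : Fin n → ℝ => v i ^ 2) (gam (Fin n)) :=
    integrable_comp_eval (μ := fun _ : Fin n => gaussianReal 0 1) (i := i) h1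
  exact integrable_comp_eval (μ := fun _ : Fin N => gam (Fin n)) (i := a) h2

instance (N n : ℕ) : IsProbabilityMeasure (patterns N n) := by
  unfold patterns; infer_instance

lemma integrable_lnZ {C : ℝ} (hn : 0 < n) (hf : Quad C f) :
    Integrable (fun g : Fin N → Fin n → ℝ => lnZ f g) (patterns N n) :=
  (((integrable_const (1 : ℝ)).add integrable_rowSq).const_mul C |>.const_mul (N : ℝ)).mono'
    (measurable_lnZ hn hf.1).aestronglyMeasurable
    (ae_of_all _ fun g => by simpa using abs_lnZ_le hn hf g)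

/-! ### integrating out one pattern -/

lemma lintegral_row {u : ℝ → ℝ≥0∞} (hu : Measurable u) {x : Fin n → ℝ}
    (hx : ∑ i, x i ^ 2 = (n : ℝ)) (hn : 0 < n) :
    ∫⁻ v, u (hd v x) ∂gam (Fin n) = ∫⁻ z, u z ∂gaussianReal 0 1 := by
  have hn' : (0 : ℝ) < n := by exact_mod_cast hn
  have hu1 : ∑ i, (x i / Real.sqrt n) ^ 2 = 1 := by
    simp only [div_pow, Real.sq_sqrt hn'.le, ← Finset.sum_div, hx, div_self hn'.ne']
  rw [show gaussianReal 0 1 = (gam (Fin n)).map (fun v => dot v fun i => x i / Real.sqrt n) from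
    (map_dot_unit hu1).symm, lintegral_map hu (by unfold dot; fun_prop)]
  refine lintegral_congr fun v => ?_
  congr 1
  simp [hd, dot, Finset.sum_div, mul_div_assoc]

/-- The mean of `u(h_a)` under the Gibbs law of the other patterns. -/
def loo {N n : ℕ} (u φ : ℝ → ℝ) (g : Fin (N + 1) → Fin n → ℝ) (a : Fin (N + 1)) : ℝ :=
  (∫ x, u (hd (g a) x) * Real.exp (En φ (fun j => g (a.succAbove j)) x) ∂sphereLaw n) /
    ∫ x, Real.exp (En φ (fun j => g (a.succAbove j)) x) ∂sphereLaw n

lemma lintegral_loo {C D : ℝ} {u φ : ℝ → ℝ} (hn : 0 < n) (hu : Quad C u) (hu0 : ∀ z, 0 ≤ u z)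
    (hφ : Quad D φ) (a : Fin (N + 1)) :
    ∫⁻ g, ENNReal.ofReal (loo u φ g a) ∂patterns (N + 1) n =
      ∫⁻ z, ENNReal.ofReal (u z) ∂gaussianReal 0 1 := by
  have := isProb_sphere hn
  have := neZero_sphere hn
  let e := MeasurableEquiv.piFinSuccAbove (fun _ : Fin (N + 1) => Fin n → ℝ) a
  have hmp := (measurePreserving_piFinSuccAbove (fun _ : Fin (N + 1) => gam (Fin n)) a).symm
  change ∫⁻ g, ENNReal.ofReal (loo u φ g a) ∂(Measure.pi fun _ : Fin (N + 1) => gam (Fin n)) = _
  rw [← hmp.map_eq, lintegral_map_equiv]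
  have key : ∀ p : (Fin n → ℝ) × (Fin N → Fin n → ℝ),
      ENNReal.ofReal (loo u φ (e.symm p) a) =
        ∫⁻ x, ENNReal.ofReal (u (hd p.1 x)) *
          ENNReal.ofReal (Real.exp (En φ p.2 x) / Zp φ p.2) ∂sphereLaw n := by
    rintro ⟨v, r⟩
    have e1 : e.symm (v, r) a = v := by
      simp [e, MeasurableEquiv.piFinSuccAbove_symm_apply, Fin.insertNthEquiv]
    have e2 : (fun j => e.symm (v, r) (a.succAbove j)) = r := by
      funext j
      simp [e, MeasurableEquiv.piFinSuccAbove_symm_apply, Fin.insertNthEquiv]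
    have hb := ae_En_le hn hφ r
    have hz : 0 < Zp φ r :=
      integral_exp_pos (integrable_exp_of_le (measurable_En' hφ.1 r)
        (hb.mono fun x hx => (abs_le.1 hx).2))
    have hi : Integrable (fun x => u (hd v x) * Real.exp (En φ r x)) (sphereLaw n) := by
      refine Integrable.of_bound ((hu.1.comp (measurable_hd' v)).mul
        (measurable_En' hφ.1 r).exp).aestronglyMeasurable
        (C * (1 + ∑ i, v i ^ 2) * Real.exp (N * (D * (1 + rowSq r)))) ?_
      filter_upwards [hb, ae_hd_le hn] with x h1 h2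
      rw [Real.norm_eq_abs, abs_mul, Real.abs_exp]
      exact mul_le_mul ((hu.2 _).trans (mul_le_mul_of_nonneg_left
          (by linarith [h2 v]) hu.nonneg)) (Real.exp_le_exp.2 (abs_le.1 h1).2)
        (Real.exp_pos _).le (mul_nonneg hu.nonneg (by positivity))
    rw [loo, e1, e2, ← Zp, ← integral_div, ofReal_integral_eq_lintegral_ofReal (hi.div_const _)
      (ae_of_all _ fun x => div_nonneg (mul_nonneg (hu0 _) (Real.exp_pos _).le) hz.le)]
    refine lintegral_congr fun x => ?_
    rw [← ENNReal.ofReal_mul (hu0 _), mul_div_assoc]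
  have hm : Measurable fun p : (Fin n → ℝ) × (Fin N → Fin n → ℝ) => Zp φ p.2 := by
    have h : Measurable fun r : Fin N → Fin n → ℝ => Zp φ r :=
      ((measurable_En hφ.1).exp.stronglyMeasurable.integral_prod_right').measurable
    exact h.comp measurable_snd
  have hmw : Measurable fun q : ((Fin n → ℝ) × (Fin N → Fin n → ℝ)) × (Fin n → ℝ) =>
      ENNReal.ofReal (u (hd q.1.1 q.2)) *
        ENNReal.ofReal (Real.exp (En φ q.1.2 q.2) / Zp φ q.1.2) :=
    (hu.1.comp (measurable_hd.comp (by fun_prop : Measurable fun q :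
        ((Fin n → ℝ) × (Fin N → Fin n → ℝ)) × (Fin n → ℝ) => (q.1.1, q.2)))).ennreal_ofReal.mul
      ((((measurable_En hφ.1).comp (by fun_prop : Measurable fun q :
        ((Fin n → ℝ) × (Fin N → Fin n → ℝ)) × (Fin n → ℝ) => (q.1.2, q.2))).exp).div
          (hm.comp measurable_fst)).ennreal_ofReal
  simp only [key, show (MeasurableEquiv.piFinSuccAbove (fun _ : Fin (N + 1) => Fin n → ℝ) a) = e
    from rfl]
  rw [lintegral_prod_symm' _ hmw.lintegral_prod_right']
  have hin : ∀ r : Fin N → Fin n → ℝ, ∫⁻ v, ∫⁻ x, ENNReal.ofReal (u (hd v x)) *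
      ENNReal.ofReal (Real.exp (En φ r x) / Zp φ r) ∂sphereLaw n ∂gam (Fin n) =
      ∫⁻ z, ENNReal.ofReal (u z) ∂gaussianReal 0 1 := by
    intro r
    have hm2 : Measurable fun p : (Fin n → ℝ) × (Fin n → ℝ) =>
        ENNReal.ofReal (u (hd p.1 p.2)) * ENNReal.ofReal (Real.exp (En φ r p.2) / Zp φ r) :=
      (hu.1.comp measurable_hd).ennreal_ofReal.mul
        (((measurable_En' hφ.1 r).exp.div_const _).ennreal_ofReal.comp measurable_snd)
    rw [lintegral_lintegral_swap hm2.aemeasurable]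
    have hb := ae_En_le hn hφ r
    have hie := integrable_exp_of_le (measurable_En' hφ.1 r) (hb.mono fun x hx => (abs_le.1 hx).2)
    have hz : 0 < Zp φ r := integral_exp_pos hie
    have hone : ∫⁻ x, ENNReal.ofReal (Real.exp (En φ r x) / Zp φ r) ∂sphereLaw n = 1 := by
      rw [← ofReal_integral_eq_lintegral_ofReal (hie.div_const _)
        (ae_of_all _ fun x => div_nonneg (Real.exp_pos _).le hz.le), integral_div, ← Zp,
        div_self hz.ne', ENNReal.ofReal_one]
    have hc : ∀ᵐ x ∂sphereLaw n, ∫⁻ v, ENNReal.ofReal (u (hd v x)) *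
        ENNReal.ofReal (Real.exp (En φ r x) / Zp φ r) ∂gam (Fin n) =
        (∫⁻ z, ENNReal.ofReal (u z) ∂gaussianReal 0 1) *
          ENNReal.ofReal (Real.exp (En φ r x) / Zp φ r) := by
      filter_upwards [ae_sq_sum hn] with x hx
      rw [lintegral_mul_const _ (f := fun v => ENNReal.ofReal (u (hd v x)))
        (by unfold hd; exact (hu.1.comp (by fun_prop)).ennreal_ofReal),
        lintegral_row hu.1.ennreal_ofReal hx hn]
    rw [lintegral_congr_ae hc, lintegral_const_mul _
      (((measurable_En' hφ.1 r).exp.div_const _).ennreal_ofReal), hone, mul_one]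
  simp only [hin, lintegral_const, measure_univ, mul_one]

/-! ### the cut -/

lemma cut_ge (f : ℝ → ℝ) (T : ℕ) (z : ℝ) : f z ≤ cut f T z := le_max_left _ _

lemma quad_cut {C : ℝ} (hf : Quad C f) (T : ℕ) : Quad C (cut f T) := by
  refine ⟨hf.1.max measurable_const, fun z => ?_⟩
  have h := abs_le.1 (hf.2 z)
  rw [cut, abs_le]
  refine ⟨h.1.trans (le_max_left _ _), max_le h.2 ?_⟩
  nlinarith [hf.nonneg, sq_nonneg z, (Nat.cast_nonneg T : (0 : ℝ) ≤ T)]

/-- What the cut removes. -/
def rem (f : ℝ → ℝ) (T : ℕ) (z : ℝ) : ℝ := cut f T z - f z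

lemma rem_nonneg (f : ℝ → ℝ) (T : ℕ) (z : ℝ) : 0 ≤ rem f T z := sub_nonneg.2 (cut_ge f T z)

lemma quad_rem {C : ℝ} (hf : Quad C f) (T : ℕ) : Quad (2 * C) (rem f T) :=
  ⟨(quad_cut hf T).1.sub hf.1, fun z =>
    (abs_sub _ _).trans (by linarith [hf.2 z, (quad_cut hf T).2 z])⟩

lemma integrable_quad_gauss {C : ℝ} (hf : Quad C f) : Integrable f (gaussianReal 0 1) :=
  (((integrable_const (1 : ℝ)).add
    (IsGaussian.memLp_two_id (μ := gaussianReal 0 1)).integrable_sq).const_mul C).mono'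
    hf.1.aestronglyMeasurable (ae_of_all _ fun z => by simpa using hf.2 z)

lemma cut_cost_pt {C : ℝ} (hn : 0 < n) (hf : Quad C f) (T : ℕ) (g : Fin (N + 1) → Fin n → ℝ) :
    lnZ (cut f T) g - lnZ f g ≤ 1 / (n : ℝ) * ∑ a, loo (rem f T) (cut f T) g a := by
  have := isProb_sphere hn
  have := neZero_sphere hn
  set ψ := cut f T with hψ
  have hq : Quad C ψ := quad_cut hf T
  set K := ((N + 1 : ℕ) : ℝ) * (C * (1 + rowSq g))
  have hJ := logInt_ge (measurable_En' hf.1 g) (measurable_En' hq.1 g) (K := K)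
    (ae_En_le hn hf g) (ae_En_le hn hq g)
  have hie := integrable_exp_of_le (measurable_En' hq.1 g)
    ((ae_En_le hn hq g).mono fun x hx => (abs_le.1 hx).2)
  have hZ : 0 < Zp ψ g := integral_exp_pos hie
  rw [lnZ_eq, lnZ_eq, ← mul_sub]
  refine mul_le_mul_of_nonneg_left ?_ (by positivity)
  have hd2 : Quad (2 * C) (rem f T) := quad_rem hf T
  have hbd : ∀ a, Integrable (fun x => rem f T (hd (g a) x) * Real.exp (En ψ g x))
      (sphereLaw n) := fun a => by
    refine hie.bdd_mul (c := 2 * C * (1 + rowSq g))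
      (hd2.1.comp (measurable_hd' _)).aestronglyMeasurable ?_
    filter_upwards [ae_hd_le hn] with x hx
    exact (hd2.2 _).trans (mul_le_mul_of_nonneg_left (by linarith [(hx (g a)).trans (row_le g a)])
      hd2.nonneg)
  have e : (∫ x, (En f g x - En ψ g x) * Real.exp (En ψ g x) ∂sphereLaw n) =
      -∑ a, ∫ x, rem f T (hd (g a) x) * Real.exp (En ψ g x) ∂sphereLaw n := by
    rw [← integral_finsetSum _ fun a _ => hbd a, ← integral_neg]
    refine integral_congr_ae (ae_of_all _ fun x => ?_)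
    simp only [En, rem, ← Finset.sum_mul, Finset.sum_sub_distrib, ← hψ]
    ring
  rw [e, ← Zp, ← Zp, neg_div, Finset.sum_div] at hJ
  refine le_trans (show _ ≤ ∑ a, (∫ x, rem f T (hd (g a) x) * Real.exp (En ψ g x)
    ∂sphereLaw n) / Zp ψ g by linarith) (Finset.sum_le_sum fun a _ => ?_)
  -- the pattern `a`: where the cut acts its weight is the least possible
  have hr := ae_En_le hn hq (fun j => g (a.succAbove j))
  have hie' := integrable_exp_of_le (measurable_En' hq.1 (fun j => g (a.succAbove j)))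
    (hr.mono fun x hx => (abs_le.1 hx).2)
  have hsplit : ∀ x, En ψ g x = ψ (hd (g a) x) + En ψ (fun j => g (a.succAbove j)) x := fun x =>
    Fin.sum_univ_succAbove _ a
  have hnum : ∫ x, rem f T (hd (g a) x) * Real.exp (En ψ g x) ∂sphereLaw n =
      Real.exp (-(T : ℝ)) * ∫ x, rem f T (hd (g a) x) *
        Real.exp (En ψ (fun j => g (a.succAbove j)) x) ∂sphereLaw n := by
    rw [← integral_const_mul]
    refine integral_congr_ae (ae_of_all _ fun x => ?_)
    show rem f T _ * Real.exp (En ψ g x) = Real.exp _ * (rem f T _ * Real.exp (En ψ _ x))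
    rw [hsplit, Real.exp_add]
    simp only [hψ, rem, cut]
    rcases le_total (f (hd (g a) x)) (-(T : ℝ)) with h | h
    · rw [max_eq_right h]; ring
    · rw [max_eq_left h]; ring
  have hden : Real.exp (-(T : ℝ)) * Zp ψ (fun j => g (a.succAbove j)) ≤ Zp ψ g := by
    rw [Zp, ← integral_const_mul]
    refine integral_mono (hie'.const_mul _) hie fun x => ?_
    rw [hsplit, Real.exp_add]
    exact mul_le_mul_of_nonneg_right (Real.exp_le_exp.2 (le_max_right _ _)) (Real.exp_pos _).le
  have hZ' : 0 < Zp ψ (fun j => g (a.succAbove j)) := integral_exp_pos hie'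
  have hnn : 0 ≤ ∫ x, rem f T (hd (g a) x) * Real.exp (En ψ (fun j => g (a.succAbove j)) x)
      ∂sphereLaw n := integral_nonneg fun x => mul_nonneg (rem_nonneg _ _ _) (Real.exp_pos _).le
  rw [hnum, loo, ← Zp]
  refine (div_le_div_of_nonneg_left (mul_nonneg (Real.exp_pos _).le hnn) (by positivity)
    hden).trans_eq ?_
  field_simp

/-- Cutting costs at most `(N/n) E[(cut f - f)(Z)]` in mean. -/
lemma cut_cost {C : ℝ} (hn : 0 < n) (hf : Quad C f) (T : ℕ) :
    ∫ g, (lnZ (cut f T) g - lnZ f g) ∂patterns N n ≤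
      (N : ℝ) / n * ∫ z, rem f T z ∂gaussianReal 0 1 := by
  rcases Nat.eq_zero_or_pos N with rfl | hN
  · simp [lnZ]
  obtain ⟨M, rfl⟩ := Nat.exists_eq_succ_of_ne_zero hN.ne'
  have := isProb_sphere hn
  have hq := quad_cut hf T
  have hR : 0 ≤ ∫ z, rem f T z ∂gaussianReal 0 1 := integral_nonneg (rem_nonneg f T)
  refine (ENNReal.ofReal_le_ofReal_iff (by positivity)).1 ?_
  rw [ofReal_integral_eq_lintegral_ofReal (f := fun g : Fin _ → Fin n → ℝ => lnZ (cut f T) g - lnZ f g)
    ((integrable_lnZ hn hq).sub (integrable_lnZ hn hf))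
    (ae_of_all _ fun g => sub_nonneg.2 (lnZ_mono hn hf hq (cut_ge f T) g))]
  refine (lintegral_mono fun g => ENNReal.ofReal_le_ofReal (cut_cost_pt hn hf T g)).trans ?_
  have hl : ∀ g a, 0 ≤ loo (rem f T) (cut f T) (g : Fin (M + 1) → Fin n → ℝ) a := fun g a =>
    div_nonneg (integral_nonneg fun x => mul_nonneg (rem_nonneg _ _ _) (Real.exp_pos _).le)
      (integral_nonneg fun x => (Real.exp_pos _).le)
  simp only [ENNReal.ofReal_mul (show (0 : ℝ) ≤ 1 / (n : ℝ) by positivity),
    ENNReal.ofReal_sum_of_nonneg (fun a _ => hl _ a)]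
  have hmz : ∀ a, Measurable fun g : Fin (M + 1) → Fin n → ℝ =>
      loo (rem f T) (cut f T) g a := fun a => by
    have hr : Measurable fun g : Fin (M + 1) → Fin n → ℝ => fun j => g (a.succAbove j) := by fun_prop
    refine Measurable.div ?_ ?_
    · have hA : Measurable fun p : (Fin (M + 1) → Fin n → ℝ) × (Fin n → ℝ) => (p.1 a, p.2) :=
        ((measurable_pi_apply a).comp measurable_fst).prodMk measurable_snd
      have hB : Measurable fun p : (Fin (M + 1) → Fin n → ℝ) × (Fin n → ℝ) =>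
          ((fun j => p.1 (a.succAbove j)), p.2) := (hr.comp measurable_fst).prodMk measurable_snd
      have hm : Measurable fun p : (Fin (M + 1) → Fin n → ℝ) × (Fin n → ℝ) =>
          rem f T (hd (p.1 a) p.2) *
            Real.exp (En (cut f T) (fun j => p.1 (a.succAbove j)) p.2) :=
        ((quad_rem hf T).1.comp (measurable_hd.comp hA)).mul ((measurable_En hq.1).comp hB).exp
      exact hm.stronglyMeasurable.integral_prod_right'.measurable
    · exact ((measurable_En hq.1).exp.stronglyMeasurable.integral_prod_right').measurable.comp hr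
  rw [lintegral_const_mul _ (Finset.measurable_sum _ fun a _ => (hmz a).ennreal_ofReal),
    lintegral_finsetSum _ fun a _ => (hmz a).ennreal_ofReal]
  simp only [lintegral_loo hn (quad_rem hf T) (rem_nonneg f T) hq]
  rw [← ofReal_integral_eq_lintegral_ofReal (integrable_quad_gauss (quad_rem hf T))
    (ae_of_all _ (rem_nonneg f T)), Finset.sum_const, Finset.card_univ, Fintype.card_fin,
    nsmul_eq_mul, ← ENNReal.ofReal_natCast, ← ENNReal.ofReal_mul (Nat.cast_nonneg _),
    ← ENNReal.ofReal_mul (by positivity)]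
  exact le_of_eq (congrArg _ (by ring))

lemma tendsto_rem {C : ℝ} (hf : Quad C f) :
    Tendsto (fun T : ℕ => ∫ z, rem f T z ∂gaussianReal 0 1) atTop (𝓝 0) := by
  suffices Tendsto (fun T : ℕ => ∫ z, rem f T z ∂gaussianReal 0 1) atTop
      (𝓝 (∫ _z : ℝ, (0 : ℝ) ∂gaussianReal 0 1)) by simpa using this
  refine tendsto_integral_of_dominated_convergence (fun z => 2 * C * (1 + z ^ 2))
    (fun T => (quad_rem hf T).1.aestronglyMeasurable)
    (((integrable_const (1 : ℝ)).add
      (IsGaussian.memLp_two_id (μ := gaussianReal 0 1)).integrable_sq).const_mul _)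
    (fun T => ae_of_all _ fun z => (quad_rem hf T).2 z) (ae_of_all _ fun z => ?_)
  refine tendsto_const_nhds.congr' ?_
  filter_upwards [eventually_ge_atTop ⌈|f z|⌉₊] with T hT
  have : |f z| ≤ T := (Nat.le_ceil _).trans (by exact_mod_cast hT)
  rw [rem, cut, max_eq_left (by linarith [neg_abs_le (f z)]), sub_self]

/-! ### bounded potentials -/

lemma variance_bdd {A : ℝ} (hn : 0 < n) (hf : Measurable f) (hA : ∀ z, |f z| ≤ A) :
    variance (fun g : Fin N → Fin n → ℝ => lnZ f g) (patterns N n) ≤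
      (N : ℝ) * ((1 / 2) * (2 * A / n) ^ 2) := by
  have := isProb_sphere hn
  have := neZero_sphere hn
  have hq : Quad A f := ⟨hf, fun z => (hA z).trans
    (le_mul_of_one_le_right ((abs_nonneg _).trans (hA 0)) (by nlinarith [sq_nonneg z]))⟩
  have hm := measurable_lnZ (N := N) hn hf
  have hbd : ∀ (g : Fin N → Fin n → ℝ) x, En f g x ≤ N * A := fun g x =>
    (Finset.sum_le_sum fun a _ => (abs_le.1 (hA _)).2).trans_eq (by simp)
  have hA0 : 0 ≤ A := (abs_nonneg _).trans (hA 0)
  have hsub : ∀ (g g' : Fin N → Fin n → ℝ) (K : ℝ), (∀ x, En f g x ≤ En f g' x + K) →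
      lnZ f g - lnZ f g' ≤ K / n := fun g g' K h => by
    have h' := logInt_mono (μ := sphereLaw n) (K := K) (measurable_En' hf g) (measurable_En' hf g')
      (ae_of_all _ (hbd g')) (ae_of_all _ h)
    rw [lnZ_eq, lnZ_eq, ← mul_sub, div_mul_eq_mul_div, one_mul]
    exact div_le_div_of_nonneg_right (by unfold Zp; linarith) (Nat.cast_nonneg n)
  have h2 : MemLp (fun g : Fin N → Fin n → ℝ => lnZ f g) 2 (patterns N n) := by
    refine MemLp.of_bound hm.aestronglyMeasurable (|lnZ f (0 : Fin N → Fin n → ℝ)| + 2 * N * A / n)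
      (ae_of_all _ fun g => ?_)
    have hk : ∀ g g' x, En f g x ≤ En f (g' : Fin N → Fin n → ℝ) x + 2 * N * A := fun g g' x => by
      have h1 := hbd g x
      have h3 : -((N : ℝ) * A) ≤ En f g' x :=
        le_trans (le_of_eq (by simp)) (Finset.sum_le_sum fun a _ => (abs_le.1 (hA _)).1)
      linarith
    rw [Real.norm_eq_abs, abs_le]
    constructor <;> linarith [hsub g 0 _ (hk g 0), hsub 0 g _ (hk 0 g),
      le_abs_self (lnZ f (0 : Fin N → Fin n → ℝ)), neg_abs_le (lnZ f (0 : Fin N → Fin n → ℝ))]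
  refine (Vale.Agent.P168.Toolkit.efronStein (fun _ : Fin N => gam (Fin n)) hm h2
    (d := fun _ _ _ => 2 * A / n) (fun _ => integrable_const _) fun g k v => ?_).trans_eq (by simp)
  have hk : ∀ g' g'' : Fin N → Fin n → ℝ, (∀ b, b ≠ k → g' b = g'' b) →
      ∀ x, En f g' x ≤ En f g'' x + 2 * A := fun g' g'' h x => by
    rw [En, En, ← Finset.add_sum_erase _ _ (Finset.mem_univ k),
      ← Finset.add_sum_erase _ _ (Finset.mem_univ k),
      Finset.sum_congr rfl fun b hb => by rw [h b (Finset.ne_of_mem_erase hb)]]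
    linarith [(abs_le.1 (hA (hd (g' k) x))).2, (abs_le.1 (hA (hd (g'' k) x))).1]
  rw [abs_le]
  constructor <;>
    linarith [hsub g (Function.update g k v) _ (hk _ _ fun b hb => (Function.update_of_ne hb v g).symm),
      hsub (Function.update g k v) g _ (hk _ _ fun b hb => Function.update_of_ne hb v g)]

lemma restrict_mp {M : ℕ} (h : M ≤ N) :
    MeasurePreserving (fun (g : Fin N → Fin n → ℝ) (j : Fin M) => g (Fin.castLE h j))
      (patterns N n) (patterns M n) := by
  refine ⟨by fun_prop, (Measure.pi_eq fun s hs => ?_).symm⟩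
  classical
  rw [Measure.map_apply (by fun_prop) (MeasurableSet.univ_pi hs)]
  set t : Fin N → Set (Fin n → ℝ) := fun b => if hb : b.val < M then s ⟨b, hb⟩ else Set.univ
  have e : (fun (g : Fin N → Fin n → ℝ) (j : Fin M) => g (Fin.castLE h j)) ⁻¹' Set.univ.pi s =
      Set.univ.pi t := by
    ext g
    simp only [Set.mem_preimage, Set.mem_univ_pi, t]
    refine ⟨fun hg b => ?_, fun hg j => ?_⟩
    · split_ifs with hb
      · exact hg ⟨b, hb⟩
      · trivial
    · simpa [j.isLt] using hg (Fin.castLE h j)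
  rw [e, patterns, Measure.pi_pi]
  obtain ⟨d, rfl⟩ := Nat.exists_eq_add_of_le h
  rw [Fin.prod_univ_add]
  simp [t]

lemma mean_close {A : ℝ} {M : ℕ} (hn : 0 < n) (hf : Measurable f) (hA : ∀ z, |f z| ≤ A)
    (h : M ≤ N) :
    |(∫ g, lnZ f g ∂patterns N n) - ∫ g, lnZ f g ∂patterns M n| ≤ ((N : ℝ) - M) * A / n := by
  have := isProb_sphere hn
  have := neZero_sphere hn
  have hq : Quad A f := ⟨hf, fun z => (hA z).trans
    (le_mul_of_one_le_right ((abs_nonneg _).trans (hA 0)) (by nlinarith [sq_nonneg z]))⟩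
  have hmp := restrict_mp (n := n) h
  have e : ∫ g, lnZ f g ∂patterns M n =
      ∫ g : Fin N → Fin n → ℝ, lnZ f (fun j => g (Fin.castLE h j)) ∂patterns N n := by
    rw [← hmp.map_eq, integral_map hmp.measurable.aemeasurable
      (measurable_lnZ hn hf).aestronglyMeasurable]
  have hd : ∀ g : Fin N → Fin n → ℝ,
      |lnZ f g - lnZ f (fun j => g (Fin.castLE h j))| ≤ ((N : ℝ) - M) * A / n := by
    intro g
    have hx : ∀ x, |En f g x - En f (fun j => g (Fin.castLE h j)) x| ≤ ((N : ℝ) - M) * A := by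
      intro x
      obtain ⟨d, rfl⟩ := Nat.exists_eq_add_of_le h
      rw [En, En, Fin.sum_univ_add]
      simp only [show ∀ j : Fin M, Fin.castLE h j = Fin.castAdd d j from
        fun j => rfl, add_sub_cancel_left]
      refine (Finset.abs_sum_le_sum_abs _ _).trans
        ((Finset.sum_le_card_nsmul _ _ A fun b _ => hA _).trans_eq ?_)
      simp
    have hb : ∀ {L : ℕ} (g : Fin L → Fin n → ℝ) x, En f g x ≤ L * A := fun g x =>
      (Finset.sum_le_sum fun a _ => (abs_le.1 (hA _)).2).trans_eq (by simp)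
    have h1 := logInt_mono (μ := sphereLaw n) (K := ((N : ℝ) - M) * A) (measurable_En' hf g)
      (measurable_En' hf fun j => g (Fin.castLE h j)) (ae_of_all _ (hb _))
      (ae_of_all _ fun x => by linarith [(abs_le.1 (hx x)).2])
    have h2 := logInt_mono (μ := sphereLaw n) (K := ((N : ℝ) - M) * A)
      (measurable_En' hf fun j => g (Fin.castLE h j)) (measurable_En' hf g) (ae_of_all _ (hb _))
      (ae_of_all _ fun x => by linarith [(abs_le.1 (hx x)).1])
    rw [lnZ_eq, lnZ_eq, ← mul_sub, abs_mul, abs_of_nonneg (by positivity : (0 : ℝ) ≤ 1 / (n : ℝ)),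
      div_mul_eq_mul_div, one_mul]
    exact div_le_div_of_nonneg_right (abs_le.2 ⟨by unfold Zp; linarith, by unfold Zp; linarith⟩)
      (Nat.cast_nonneg n)
  have hi : Integrable (fun g : Fin N → Fin n → ℝ => lnZ f (fun j => g (Fin.castLE h j)))
      (patterns N n) :=
    (hmp.integrable_comp (measurable_lnZ hn hf).aestronglyMeasurable).2 (integrable_lnZ hn hq)
  rw [e, ← integral_sub (integrable_lnZ hn hq) hi]
  refine abs_integral_le_integral_abs.trans ?_
  refine (integral_mono ((integrable_lnZ hn hq).sub hi).abs (integrable_const _) hd).trans_eq ?_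
  simp

/-! ### the dimension `⌊p N⌋` -/

variable {p : ℝ}

lemma dim_tendsto (hp : 0 < p) : Tendsto (fun N : ℕ => ⌊p * N⌋₊) atTop atTop :=
  tendsto_nat_floor_atTop.comp (tendsto_natCast_atTop_atTop.const_mul_atTop hp)

lemma dim_le (hp : 0 < p) (N : ℕ) : ⌊p⁻¹ * (⌊p * N⌋₊ : ℕ)⌋₊ ≤ N := by
  refine Nat.floor_le_of_le ?_
  rw [inv_mul_le_iff₀ hp]
  exact Nat.floor_le (by positivity)

lemma dim_gap (hp : 0 < p) (N : ℕ) :
    (N : ℝ) - (⌊p⁻¹ * (⌊p * N⌋₊ : ℕ)⌋₊ : ℕ) ≤ p⁻¹ + 1 := by
  have h1 : p⁻¹ * (⌊p * (N : ℝ)⌋₊ : ℕ) - 1 ≤ (⌊p⁻¹ * (⌊p * N⌋₊ : ℕ)⌋₊ : ℕ) :=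
    (Nat.sub_one_lt_floor _).le
  have h2 : p⁻¹ * (p * N - 1) ≤ p⁻¹ * (⌊p * (N : ℝ)⌋₊ : ℕ) :=
    mul_le_mul_of_nonneg_left (Nat.sub_one_lt_floor _).le (by positivity)
  rw [mul_sub, mul_one, inv_mul_cancel_left₀ hp.ne'] at h2
  linarith

lemma ratio_tendsto (hp : 0 < p) :
    Tendsto (fun N : ℕ => (N : ℝ) / (⌊p * N⌋₊ : ℕ)) atTop (𝓝 p⁻¹) := by
  have h := (tendsto_nat_floor_mul_div_atTop (R := ℝ) hp.le).comp
    (tendsto_natCast_atTop_atTop (R := ℝ))
  simpa using h.inv₀ hp.ne'

/-- The mean over the patterns in dimension `⌊p N⌋`. -/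
def mean (p : ℝ) (f : ℝ → ℝ) (N : ℕ) : ℝ := ∫ g, lnZ f g ∂patterns N ⌊p * N⌋₊

lemma mean_tendsto_bdd {A : ℝ} (hp : 0 < p) (hf : Measurable f) (hA : ∀ z, |f z| ≤ A) :
    Tendsto (mean p f) atTop (𝓝 (sInf (sphereValues p⁻¹ f))) := by
  have hlim := (sphere_formula p⁻¹ f (by positivity) hf ⟨A, hA⟩).2.comp (dim_tendsto hp)
  have hA0 : 0 ≤ A := (abs_nonneg _).trans (hA 0)
  have hd : Tendsto (fun N : ℕ => (p⁻¹ + 1) * A / (⌊p * N⌋₊ : ℕ)) atTop (𝓝 0) :=
    (tendsto_const_div_atTop_nhds_zero_nat ((p⁻¹ + 1) * A)).comp (dim_tendsto hp)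
  refine (tendsto_iff_of_dist (f₂ := mean p f) ?_).1 hlim
  refine squeeze_zero' (.of_forall fun _ => dist_nonneg) ?_ hd
  filter_upwards [(dim_tendsto hp).eventually (eventually_gt_atTop 0)] with N hN
  rw [dist_comm, Real.dist_eq]
  exact (mean_close hN hf hA (dim_le hp N)).trans
    (div_le_div_of_nonneg_right (mul_le_mul_of_nonneg_right (dim_gap hp N) hA0)
      (Nat.cast_nonneg _))

/-! ### the limit for potentials of quadratic decay -/

variable {B C : ℝ}

lemma cut_bdd (hB : ∀ z, f z ≤ B) (T : ℕ) (z : ℝ) : |cut f T z| ≤ |B| + T := by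
  rw [cut, abs_le]
  exact ⟨by linarith [le_max_right (f z) (-(T : ℝ)), abs_nonneg B],
    max_le (by linarith [hB z, le_abs_self B, (Nat.cast_nonneg T : (0 : ℝ) ≤ T)])
      (by linarith [abs_nonneg B, (Nat.cast_nonneg T : (0 : ℝ) ≤ T)])⟩

/-- The formula of the cut potential. -/
def cutVal (p : ℝ) (f : ℝ → ℝ) (T : ℕ) : ℝ := sInf (sphereValues p⁻¹ (cut f T))

lemma mean_cut_tendsto (hp : 0 < p) (hf : Quad C f) (hB : ∀ z, f z ≤ B) (T : ℕ) :
    Tendsto (mean p (cut f T)) atTop (𝓝 (cutVal p f T)) :=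
  mean_tendsto_bdd hp (quad_cut hf T).1 (cut_bdd hB T)

lemma mean_mono {f' : ℝ → ℝ} {D : ℝ} (hn : 0 < ⌊p * N⌋₊) (hf : Quad C f) (hf' : Quad D f')
    (h : ∀ z, f z ≤ f' z) : mean p f N ≤ mean p f' N := by
  have := isProb_sphere hn
  exact integral_mono (integrable_lnZ hn hf) (integrable_lnZ hn hf') (lnZ_mono hn hf hf' h)

lemma mean_cut_le (hn : 0 < ⌊p * N⌋₊) (hf : Quad C f) (T : ℕ) :
    mean p (cut f T) N ≤
      mean p f N + (N : ℝ) / (⌊p * N⌋₊ : ℕ) * ∫ z, rem f T z ∂gaussianReal 0 1 := by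
  have h := cut_cost (N := N) hn hf T
  rw [integral_sub (integrable_lnZ hn (quad_cut hf T)) (integrable_lnZ hn hf)] at h
  simp only [mean]
  linarith

lemma cutVal_facts (hp : 0 < p) (hf : Quad C f) (hB : ∀ z, f z ≤ B) :
    Tendsto (cutVal p f) atTop (𝓝 (⨅ T, cutVal p f T)) := by
  have ev := (dim_tendsto hp).eventually (eventually_gt_atTop 0)
  refine tendsto_atTop_ciInf (fun S T hST => ?_)
    ⟨cutVal p f 0 - p⁻¹ * ∫ z, rem f 0 z ∂gaussianReal 0 1, ?_⟩
  · refine le_of_tendsto_of_tendsto (mean_cut_tendsto hp hf hB T) (mean_cut_tendsto hp hf hB S) ?_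
    filter_upwards [ev] with N hN
    exact mean_mono hN (quad_cut hf T) (quad_cut hf S) fun z =>
      max_le_max_left _ (neg_le_neg (by exact_mod_cast hST))
  · rintro _ ⟨T, rfl⟩
    refine le_of_tendsto_of_tendsto ((mean_cut_tendsto hp hf hB 0).sub
      ((ratio_tendsto hp).mul_const _)) (mean_cut_tendsto hp hf hB T) ?_
    filter_upwards [ev] with N hN
    linarith [mean_cut_le hN hf 0, mean_mono hN hf (quad_cut hf T) (cut_ge f T)]

lemma abs_dev_tendsto (hp : 0 < p) (hf : Quad C f) (hB : ∀ z, f z ≤ B) :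
    Tendsto (fun N : ℕ => ∫ g, |lnZ f g - ⨅ T, cutVal p f T| ∂patterns N ⌊p * N⌋₊) atTop
      (𝓝 0) := by
  set S := ⨅ T, cutVal p f T with hS
  rw [Metric.tendsto_atTop]
  intro ε hε
  have h1 : ∀ᶠ T in atTop, |cutVal p f T - S| < ε / 8 := by
    simpa [Real.dist_eq] using
      Metric.tendsto_nhds.1 (cutVal_facts hp hf hB) (ε / 8) (by positivity)
  have h2 : ∀ᶠ T in atTop, p⁻¹ * ∫ z, rem f T z ∂gaussianReal 0 1 < ε / 8 := by
    have := (tendsto_rem hf).const_mul p⁻¹
    rw [mul_zero] at this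
    exact this.eventually (eventually_lt_nhds (by positivity))
  obtain ⟨T, hT1, hT2⟩ := (h1.and h2).exists
  set A := |B| + (T : ℝ) with hA
  set η := ε / 4 with hη
  have hvar : Tendsto (fun N : ℕ => (N : ℝ) / (⌊p * N⌋₊ : ℕ) * (2 * A ^ 2) /
      (⌊p * N⌋₊ : ℕ) / η) atTop (𝓝 0) := by
    have := ((((ratio_tendsto hp).mul_const (2 * A ^ 2)).mul
      ((tendsto_const_div_atTop_nhds_zero_nat (1 : ℝ)).comp (dim_tendsto hp))).div_const η)
    simpa [div_eq_mul_inv] using this
  obtain ⟨N₀, hN₀⟩ := eventually_atTop.1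
    (((dim_tendsto hp).eventually (eventually_gt_atTop 0)).and
      ((hvar.eventually (eventually_lt_nhds (show (0 : ℝ) < ε / 8 by positivity))).and
        (((Metric.tendsto_nhds.1 (mean_cut_tendsto hp hf hB T) (ε / 8) (by positivity))).and
          (((ratio_tendsto hp).mul_const (∫ z, rem f T z ∂gaussianReal 0 1)).eventually
            (eventually_lt_nhds hT2)))))
  refine ⟨N₀, fun N hN => ?_⟩
  obtain ⟨hn, hv, hm, hr⟩ := hN₀ N hN
  rw [Real.dist_eq] at hm
  rw [Real.dist_eq, sub_zero, abs_of_nonneg (integral_nonneg fun g => abs_nonneg _)]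
  have := isProb_sphere hn
  have hi := integrable_lnZ (N := N) hn hf
  have hic := integrable_lnZ (N := N) hn (quad_cut hf T)
  set m := mean p (cut f T) N with hm'
  have hm2 : MemLp (fun g : Fin N → Fin ⌊p * N⌋₊ → ℝ => lnZ (cut f T) g) 2 (patterns N _) := by
    refine MemLp.of_bound hic.aestronglyMeasurable
      (N * A / (⌊p * N⌋₊ : ℕ)) (ae_of_all _ fun g => ?_)
    have := neZero_sphere hn
    have hb : ∀ x, |En (cut f T) g x| ≤ N * A := fun x =>
      (Finset.abs_sum_le_sum_abs _ _).trans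
        ((Finset.sum_le_sum fun a _ => cut_bdd hB T _).trans_eq (by simp [hA]; ring))
    have h3 := logInt_mono (μ := sphereLaw ⌊p * N⌋₊) (K := N * A)
      (measurable_En' (quad_cut hf T).1 g) (measurable_const (a := (0 : ℝ)))
      (ae_of_all _ fun _ => le_refl _) (ae_of_all _ fun x => by simpa using (abs_le.1 (hb x)).2)
    have h4 := logInt_mono (μ := sphereLaw ⌊p * N⌋₊) (K := N * A)
      (measurable_const (a := (0 : ℝ))) (measurable_En' (quad_cut hf T).1 g)
      (ae_of_all _ fun x => (abs_le.1 (hb x)).2)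
      (ae_of_all _ fun x => by linarith [(abs_le.1 (hb x)).1])
    simp only [Real.exp_zero, integral_const, probReal_univ, one_smul, Real.log_one] at h3 h4
    rw [Real.norm_eq_abs, lnZ_eq, abs_mul,
      abs_of_nonneg (by positivity : (0 : ℝ) ≤ 1 / ((⌊p * N⌋₊ : ℕ) : ℝ)), div_mul_eq_mul_div,
      one_mul]
    exact div_le_div_of_nonneg_right (abs_le.2 ⟨by unfold Zp; linarith, by unfold Zp; linarith⟩)
      (Nat.cast_nonneg _)
  have hsq : Integrable (fun g => (lnZ (cut f T) g - m) ^ 2) (patterns N ⌊p * N⌋₊) :=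
    (hm2.sub (memLp_const m)).integrable_sq
  have hdev : ∫ g, |lnZ (cut f T) g - m| ∂patterns N ⌊p * N⌋₊ ≤
      η / 2 + variance (fun g => lnZ (cut f T) g) (patterns N ⌊p * N⌋₊) / (2 * η) := by
    rw [variance_eq_integral hic.aemeasurable]
    refine (integral_mono (hic.sub (integrable_const m)).abs
      ((integrable_const (η / 2)).add (hsq.div_const (2 * η))) fun g => ?_).trans_eq ?_
    · simp only [Pi.add_apply]
      set y := lnZ (cut f T) g - m
      rw [show η / 2 + y ^ 2 / (2 * η) = (η ^ 2 + y ^ 2) / (2 * η) by field_simp,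
        le_div_iff₀ (by positivity)]
      show |y| * (2 * η) ≤ η ^ 2 + y ^ 2
      nlinarith [sq_nonneg (η - |y|), sq_abs y]
    · rw [integral_add' (integrable_const _) (hsq.div_const _)]
      simp [hm', mean, integral_div]
  have hv' := (variance_bdd (N := N) hn (quad_cut hf T).1 (cut_bdd hB T))
  have hv2 : variance (fun g => lnZ (cut f T) g) (patterns N ⌊p * N⌋₊) / (2 * η) ≤
      (N : ℝ) / (⌊p * N⌋₊ : ℕ) * (2 * A ^ 2) / (⌊p * N⌋₊ : ℕ) / η := by
    refine (div_le_div_of_nonneg_right hv' (by positivity)).trans ?_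
    have : (0 : ℝ) < (⌊p * N⌋₊ : ℕ) := by exact_mod_cast hn
    have e : (N : ℝ) * (1 / 2 * (2 * A / (⌊p * N⌋₊ : ℕ)) ^ 2) / (2 * η) =
        ((N : ℝ) / (⌊p * N⌋₊ : ℕ) * (2 * A ^ 2) / (⌊p * N⌋₊ : ℕ) / η) / 2 := by
      field_simp
    rw [← hA, e]
    exact half_le_self (by positivity)
  have hpt : ∀ g : Fin N → Fin ⌊p * N⌋₊ → ℝ, |lnZ f g - S| ≤
      (lnZ (cut f T) g - lnZ f g) + |lnZ (cut f T) g - m| + |m - S| := fun g => by
    have h0 := lnZ_mono hn hf (quad_cut hf T) (cut_ge f T) g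
    have h3 := abs_sub_le (lnZ f g) (lnZ (cut f T) g) S
    have h4 := abs_sub_le (lnZ (cut f T) g) m S
    rw [abs_sub_comm (lnZ f g) (lnZ (cut f T) g), abs_of_nonneg (sub_nonneg.2 h0)] at h3
    linarith
  have hiA := (hic.sub (integrable_const m)).abs
  refine lt_of_le_of_lt (integral_mono (hi.sub (integrable_const S)).abs
    (((hic.sub hi).add hiA).add (integrable_const |m - S|)) hpt) ?_
  rw [integral_add' ((hic.sub hi).add hiA) (integrable_const _), integral_add' (hic.sub hi) hiA]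
  have hc := cut_cost (N := N) hn hf T
  have : |m - S| < ε / 4 := by
    rw [abs_lt] at hm hT1 ⊢
    constructor <;> linarith
  simp only [integral_const, probReal_univ, one_smul, Pi.sub_apply] at *
  linarith

/-! ### the potentials `h(a z) - c z²` -/

lemma pot_facts {h : ℝ → ℝ} (hh : IsLink h) {a c : ℝ} (ha : 0 ≤ a) (hc : 0 < c) :
    Quad (a + c) (pot h a c) ∧ ∀ z, pot h a c z ≤ a ^ 2 / (4 * c) := by
  have hm : Measurable h := (LipschitzWith.of_dist_le_mul (K := 1) fun x y => by
    simpa [Real.dist_eq] using hh.lip x y).continuous.measurable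
  have hle : ∀ z, h (a * z) ≤ a * |z| := fun z => by
    simpa [abs_mul, abs_of_nonneg ha] using hh.le_abs (a * z)
  refine ⟨⟨(hm.comp (measurable_const_mul a)).sub ((measurable_id.pow_const 2).const_mul c),
    fun z => ?_⟩, fun z => ?_⟩
  · rw [pot, abs_le]
    constructor <;>
      nlinarith [hh.nonneg (a * z), hle z, sq_nonneg (|z| - 1), sq_abs z, abs_nonneg z]
  · rw [pot, le_div_iff₀ (by positivity), ← sq_abs z]
    nlinarith [mul_le_mul_of_nonneg_right (hle z) (by positivity : (0 : ℝ) ≤ 4 * c),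
      sq_nonneg (a - 2 * c * |z|)]

theorem l1_tendsto {h : ℝ → ℝ} (hh : IsLink h) {a c : ℝ} (hp : 0 < p) (ha : 0 ≤ a)
    (hc : 0 < c) :
    Tendsto (fun N : ℕ => ∫ g, |lnZ (pot h a c) g - sphereLim p⁻¹ h a c|
      ∂patterns N ⌊p * N⌋₊) atTop (𝓝 0) :=
  abs_dev_tendsto hp (pot_facts hh ha hc).1 (pot_facts hh ha hc).2

theorem mean_pot_tendsto {h : ℝ → ℝ} (hh : IsLink h) {a c : ℝ} (hp : 0 < p) (ha : 0 ≤ a)
    (hc : 0 < c) :
    Tendsto (mean p (pot h a c)) atTop (𝓝 (sphereLim p⁻¹ h a c)) := by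
  rw [tendsto_iff_norm_sub_tendsto_zero]
  refine squeeze_zero' (.of_forall fun _ => norm_nonneg _) ?_ (l1_tendsto hh hp ha hc)
  filter_upwards [(dim_tendsto hp).eventually (eventually_gt_atTop 0)] with N hN
  have := isProb_sphere hN
  have hi := integrable_lnZ (N := N) hN (pot_facts hh ha hc).1
  refine le_trans (le_of_eq ?_) abs_integral_le_integral_abs
  rw [integral_sub hi (integrable_const _), Real.norm_eq_abs, mean]
  simp

/-- The mean square of the fields under the Gibbs law, bounded through Jensen. -/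
lemma pot_shift_pt {h : ℝ → ℝ} (hh : IsLink h) {a c η : ℝ} (hn : 0 < n) (ha : 0 ≤ a)
    (hη : 0 ≤ η) (hc : η < c) (g : Fin N → Fin n → ℝ) :
    lnZ (pot h a (c - η)) g - lnZ (pot h a c) g ≤
      η / n * ((N : ℝ) * (a ^ 2 / (c - η) ^ 2) + 2 * ∫ x, ∑ b, hd (g b) x ^ 2 ∂sphereLaw n) := by
  have := isProb_sphere hn
  have := neZero_sphere hn
  set d := c - η with hd'
  have hd0 : 0 < d := sub_pos.2 hc
  obtain ⟨hq, -⟩ := pot_facts hh ha hd0
  obtain ⟨hq', -⟩ := pot_facts hh ha (lt_of_le_of_lt hη hc)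
  set K := max ((N : ℝ) * ((a + d) * (1 + rowSq g))) ((N : ℝ) * ((a + c) * (1 + rowSq g)))
  have hbd := (ae_En_le hn hq g).mono fun x hx => hx.trans (le_max_left _ _ : _ ≤ K)
  have hbc := (ae_En_le hn hq' g).mono fun x hx => hx.trans (le_max_right _ _ : _ ≤ K)
  set Q : (Fin n → ℝ) → ℝ := fun x => ∑ b, hd (g b) x ^ 2
  set I := Zp (pot h a d) g with hI
  have hQm : Measurable Q :=
    Finset.measurable_sum _ fun b _ => (measurable_hd' (g b)).pow_const 2
  have hQb : ∀ᵐ x ∂sphereLaw n, ‖Q x‖ ≤ N * rowSq g := by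
    filter_upwards [ae_hd_le hn] with x hx
    rw [Real.norm_eq_abs, abs_of_nonneg (Finset.sum_nonneg fun b _ => sq_nonneg _)]
    refine (Finset.sum_le_sum fun b _ => (hx (g b)).trans (row_le g b)).trans_eq ?_
    simp
  have hie := integrable_exp_of_le (measurable_En' hq.1 g) (hbd.mono fun x hx => (abs_le.1 hx).2)
  have hI0 : 0 < I := integral_exp_pos hie
  have hiQe := hie.bdd_mul hQm.aestronglyMeasurable hQb
  have hiQ : Integrable Q (sphereLaw n) := Integrable.of_bound hQm.aestronglyMeasurable _ hQb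
  have hJ := logInt_ge (measurable_En' hq'.1 g) (measurable_En' hq.1 g) (K := K) hbc hbd
  have e : ∫ x, (En (pot h a c) g x - En (pot h a d) g x) * Real.exp (En (pot h a d) g x)
      ∂sphereLaw n = -η * ∫ x, Q x * Real.exp (En (pot h a d) g x) ∂sphereLaw n := by
    rw [← integral_const_mul]
    refine integral_congr_ae (ae_of_all _ fun x => ?_)
    simp only [En, pot, Q, ← Finset.sum_sub_distrib, hd']
    rw [← mul_assoc, Finset.mul_sum]
    refine congrArg (· * _) (Finset.sum_congr rfl fun b _ => ?_)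
    ring
  rw [e, ← Zp, ← Zp, ← hI] at hJ
  set W := (∫ x, Q x * Real.exp (En (pot h a d) g x) ∂sphereLaw n) / I with hW
  have h0 := logInt_ge (F := En (pot h a d) g) (measurable_En' hq.1 g) (G := fun _ => (0 : ℝ))
    measurable_const (K := K) hbd
    (hbd.mono fun x hx => by rw [abs_zero]; exact (abs_nonneg _).trans hx)
  simp only [Real.exp_zero, sub_zero, mul_one, integral_const, probReal_univ, one_smul,
    Real.log_one, zero_add, div_one] at h0
  rw [← Zp, ← hI] at h0
  have hlow : -d * ∫ x, Q x ∂sphereLaw n ≤ ∫ x, En (pot h a d) g x ∂sphereLaw n := by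
    rw [← integral_const_mul]
    refine integral_mono (hiQ.const_mul _) (Integrable.of_bound
      (measurable_En' hq.1 g).aestronglyMeasurable K hbd) fun x => ?_
    simp only [Q, Finset.mul_sum, En]
    exact Finset.sum_le_sum fun b _ => by rw [pot]; nlinarith [hh.nonneg (a * hd (g b) x)]
  -- `log I ≤ ⟨E⟩`
  have hup : Real.log I ≤ (N : ℝ) * (a ^ 2 / (2 * d)) - d / 2 * W := by
    have hz : Measurable fun _ : Fin n → ℝ => (0 : ℝ) := measurable_const
    have h1 := logInt_ge (μ := sphereLaw n) hz (G := En (pot h a d) g) (measurable_En' hq.1 g)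
      (K := K) (hbd.mono fun x hx => by rw [abs_zero]; exact (abs_nonneg _).trans hx) hbd
    simp only [Real.exp_zero, integral_const, probReal_univ, one_smul, Real.log_one,
      zero_sub] at h1
    rw [← Zp, ← hI] at h1
    have hiE : Integrable (fun x => -En (pot h a d) g x * Real.exp (En (pot h a d) g x))
        (sphereLaw n) :=
      hie.bdd_mul (measurable_En' hq.1 g).neg.aestronglyMeasurable
        (hbd.mono fun x hx => by rw [Real.norm_eq_abs, abs_neg]; exact hx)
    have hge : ∫ x, (-((N : ℝ) * (a ^ 2 / (2 * d))) * Real.exp (En (pot h a d) g x) +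
        d / 2 * (Q x * Real.exp (En (pot h a d) g x))) ∂sphereLaw n ≤
        ∫ x, -En (pot h a d) g x * Real.exp (En (pot h a d) g x) ∂sphereLaw n := by
      refine integral_mono ((hie.const_mul _).add (hiQe.const_mul _)) hiE fun x => ?_
      rw [← mul_assoc, ← add_mul]
      refine mul_le_mul_of_nonneg_right ?_ (Real.exp_pos _).le
      have hs : En (pot h a d) g x ≤ ∑ b : Fin N, (a ^ 2 / (2 * d) - d / 2 * hd (g b) x ^ 2) := by
        refine Finset.sum_le_sum fun b _ => ?_
        set z := hd (g b) x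
        have hz' : h (a * z) ≤ a * |z| := by
          simpa [abs_mul, abs_of_nonneg ha] using hh.le_abs (a * z)
        have : a * |z| ≤ a ^ 2 / (2 * d) + d / 2 * z ^ 2 := by
          rw [← sub_le_iff_le_add, le_div_iff₀ (by positivity), ← sq_abs z]
          nlinarith [sq_nonneg (a - d * |z|)]
        rw [pot]
        linarith
      simp only [Finset.sum_sub_distrib, Finset.sum_const, Finset.card_univ, Fintype.card_fin,
        nsmul_eq_mul, ← Finset.mul_sum] at hs
      simp only [Q]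
      linarith
    rw [integral_add (hie.const_mul _) (hiQe.const_mul _), integral_const_mul,
      integral_const_mul] at hge
    have h2 := div_le_div_of_nonneg_right hge hI0.le
    rw [add_div, mul_div_assoc, mul_div_assoc, ← hW] at h2
    rw [show ∫ x, Real.exp (En (pot h a d) g x) ∂sphereLaw n = I from rfl, div_self hI0.ne',
      mul_one] at h2
    linarith
  have hWb : W ≤ (N : ℝ) * (a ^ 2 / d ^ 2) + 2 * ∫ x, Q x ∂sphereLaw n := by
    have e2 : (N : ℝ) * (a ^ 2 / (2 * d)) = d / 2 * ((N : ℝ) * (a ^ 2 / d ^ 2)) := by field_simp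
    refine le_of_mul_le_mul_left ?_ (by positivity : (0 : ℝ) < d / 2)
    linarith
  rw [mul_div_assoc] at hJ
  rw [lnZ_eq, lnZ_eq, ← mul_sub, div_mul_eq_mul_div, one_mul, div_mul_eq_mul_div]
  exact div_le_div_of_nonneg_right (by linarith [mul_le_mul_of_nonneg_left hWb hη])
    (Nat.cast_nonneg n)

lemma mean_sq_fields (hn : 0 < n) :
    Integrable (fun g : Fin N → Fin n → ℝ => ∫ x, ∑ b, hd (g b) x ^ 2 ∂sphereLaw n)
      (patterns N n) ∧
    ∫ g, ∫ x, ∑ b, hd (g b) x ^ 2 ∂sphereLaw n ∂patterns N n ≤ N := by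
  have := isProb_sphere hn
  have hm : Measurable fun q : (Fin N → Fin n → ℝ) × (Fin n → ℝ) =>
      ∑ b, hd (q.1 b) q.2 ^ 2 := by unfold hd; fun_prop
  have hi : Integrable (fun g : Fin N → Fin n → ℝ => ∫ x, ∑ b, hd (g b) x ^ 2 ∂sphereLaw n)
      (patterns N n) := by
    refine ((integrable_rowSq (N := N) (n := n)).const_mul (N : ℝ)).mono'
      hm.stronglyMeasurable.integral_prod_right'.aestronglyMeasurable (ae_of_all _ fun g => ?_)
    refine (norm_integral_le_of_norm_le_const (C := N * rowSq g) ?_).trans_eq (by simp)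
    filter_upwards [ae_hd_le hn] with x hx
    rw [Real.norm_eq_abs, abs_of_nonneg (Finset.sum_nonneg fun b _ => sq_nonneg _)]
    refine (Finset.sum_le_sum fun b _ => (hx (g b)).trans (row_le g b)).trans_eq ?_
    simp
  refine ⟨hi, le_of_eq ?_⟩
  have hii : Integrable (fun q : (Fin N → Fin n → ℝ) × (Fin n → ℝ) =>
      ∑ b, hd (q.1 b) q.2 ^ 2) ((patterns N n).prod (sphereLaw n)) := by
    refine (integrable_prod_iff hm.aestronglyMeasurable).2 ⟨ae_of_all _ fun g => ?_, ?_⟩
    · refine Integrable.of_bound (hm.comp measurable_prodMk_left).aestronglyMeasurable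
        (N * rowSq g) ?_
      filter_upwards [ae_hd_le hn] with x hx
      rw [Real.norm_eq_abs, abs_of_nonneg (Finset.sum_nonneg fun b _ => sq_nonneg _)]
      refine (Finset.sum_le_sum fun b _ => (hx (g b)).trans (row_le g b)).trans_eq ?_
      simp
    · refine hi.congr (ae_of_all _ fun g => integral_congr_ae (ae_of_all _ fun x => ?_))
      exact (Real.norm_of_nonneg (Finset.sum_nonneg fun b _ => sq_nonneg _)).symm
  rw [integral_integral_swap hii]
  have hae : ∀ᵐ x ∂sphereLaw n, ∫ g : Fin N → Fin n → ℝ, ∑ b, hd (g b) x ^ 2 ∂patterns N n = N := by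
    filter_upwards [ae_sq_sum hn] with x hx
    have hn' : (0 : ℝ) < n := by exact_mod_cast hn
    have e : ∀ v : Fin n → ℝ, hd v x = dot v fun i => x i / Real.sqrt n := fun v => by
      simp [hd, dot, Finset.sum_div, mul_div_assoc]
    have hu : ∑ i, (x i / Real.sqrt n) ^ 2 = 1 := by
      simp only [div_pow, Real.sq_sqrt hn'.le, ← Finset.sum_div, hx, div_self hn'.ne']
    have hone : ∫ v, hd v x ^ 2 ∂gam (Fin n) = 1 := by
      simp only [e, integral_dot_sq, hu]
    have hint : Integrable (fun v => hd v x ^ 2) (gam (Fin n)) :=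
      Integrable.of_integral_ne_zero (by rw [hone]; exact one_ne_zero)
    unfold patterns
    rw [integral_finsetSum _ fun b _ =>
      integrable_comp_eval (μ := fun _ : Fin N => gam (Fin n)) (i := b) hint]
    have hb : ∀ b : Fin N, ∫ g : Fin N → Fin n → ℝ, hd (g b) x ^ 2
        ∂Measure.pi (fun _ : Fin N => gam (Fin n)) = 1 := fun b =>
      (integral_comp_eval (μ := fun _ : Fin N => gam (Fin n)) (i := b)
        hint.aestronglyMeasurable).trans hone
    simp [hb]
  rw [integral_congr_ae hae]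
  simp

end SphereLim

open SphereLim

/-- The interface `SphereStmt`. -/
theorem sphereStmt : SphereStmt := by
  intro p hp _ h hh a c ha hc δ hδ
  refine squeeze_zero' (.of_forall fun _ => measureReal_nonneg) ?_
    (by simpa using (l1_tendsto hh hp ha hc).div_const δ)
  filter_upwards [(dim_tendsto hp).eventually (eventually_gt_atTop 0)] with N hN
  have := isProb_sphere hN
  have hi := ((integrable_lnZ (N := N) hN (pot_facts hh ha hc).1).sub
    (integrable_const (sphereLim p⁻¹ h a c))).abs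
  rw [le_div_iff₀ hδ, mul_comm]
  refine le_trans (mul_le_mul_of_nonneg_left (measureReal_mono
      (s₂ := {g | δ ≤ |lnZ (pot h a c) g - sphereLim p⁻¹ h a c|})
      fun g (hg : δ < _) => le_of_lt hg) hδ.le)
    (mul_meas_ge_le_integral_of_nonneg (ae_of_all _ fun g => abs_nonneg _) hi δ)

/-- The interface `ContStmt`. -/
theorem contStmt : ContStmt := by
  intro p hp _ h hh l L hl hlL
  refine ⟨p⁻¹ * (L ^ 2 / (3 * l / 4) ^ 2 + 2), fun a c η ha haL hlc _ hη hηl => ?_⟩
  have hd : 3 * l / 4 ≤ c - η := by linarith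
  have hsd : 0 < c - η := by linarith
  refine le_of_tendsto_of_tendsto (mean_pot_tendsto hh hp ha hsd)
    ((mean_pot_tendsto hh hp ha (by linarith)).add
      (((ratio_tendsto hp).mul_const (L ^ 2 / (3 * l / 4) ^ 2 + 2)).mul_const η)) ?_
  filter_upwards [(dim_tendsto hp).eventually (eventually_gt_atTop 0)] with N hN
  have := isProb_sphere hN
  have hi := integrable_lnZ (N := N) hN (pot_facts hh ha hsd).1
  have hi' := integrable_lnZ (N := N) hN (pot_facts hh ha (show (0 : ℝ) < c by linarith)).1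
  obtain ⟨hiq, hq⟩ := mean_sq_fields (N := N) hN
  have hmono := integral_mono (hi.sub hi')
    (((integrable_const _).add (hiq.const_mul 2)).const_mul _)
    (pot_shift_pt hh hN ha hη (by linarith))
  simp only [Pi.sub_apply, Pi.add_apply] at hmono
  rw [integral_sub hi hi', integral_const_mul, integral_add (integrable_const _) (hiq.const_mul 2),
    integral_const_mul] at hmono
  simp only [integral_const, probReal_univ, one_smul, integral_const_mul] at hmono
  have hfrac : a ^ 2 / (c - η) ^ 2 ≤ L ^ 2 / (3 * l / 4) ^ 2 :=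
    div_le_div₀ (sq_nonneg L) (pow_le_pow_left₀ ha haL 2) (by positivity)
      (pow_le_pow_left₀ (by linarith) hd 2)
  simp only [mean]
  refine sub_le_iff_le_add'.1 (hmono.trans ?_)
  refine (mul_le_mul_of_nonneg_left (add_le_add (mul_le_mul_of_nonneg_left hfrac (Nat.cast_nonneg N))
    (mul_le_mul_of_nonneg_left hq zero_le_two)) (by positivity)).trans_eq ?_
  ring

end Vale.Agent.P166.TwoAtom
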