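import Vale.Agent.P166.TwoAtom.Defs
import Vale.Agent.P166.Seq

/-!
Interfaces of the two-atom formula.
-/

noncomputable section

open MeasureTheory ProbabilityTheory Filter
open scoped BigOperators Topology

namespace Vale.Agent.P166.TwoAtom

open Vale.Agent.P157

/-- The class of the functions `h`: `log cosh` and `0` belong to it. -/
structure IsLink (h : ℝ → ℝ) : Prop where
  nonneg : ∀ z, 0 ≤ h z
  le_abs : ∀ z, h z ≤ |z|
  lip : ∀ x y, |h x - h y| ≤ |x - y|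

/-- The log-partition function per dimension of a spherical perceptron. -/
def lnZ {N n : ℕ} (f : ℝ → ℝ) (g : Fin N → Fin n → ℝ) : ℝ :=
  (1 / (n : ℝ)) * Real.log (∫ x, Real.exp (∑ a, f ((∑ i, g a i * x i) / Real.sqrt n)) ∂sphereLaw n)

/-- The spherical perceptron with `N` patterns in dimension `⌊pN⌋` converges in probability. -/
def SphereStmt : Prop :=
  ∀ p : ℝ, 0 < p → p < 1 → ∀ h, IsLink h → ∀ a c : ℝ, 0 ≤ a → 0 < c → ∀ δ : ℝ, 0 < δ →
    Tendsto (fun N : ℕ => (patterns N ⌊p * N⌋₊).real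
      {g | δ < |lnZ (pot h a c) g - sphereLim p⁻¹ h a c|}) atTop (𝓝 0)

/-- The limit is Lipschitz in the curvature, locally uniformly. -/
def ContStmt : Prop :=
  ∀ p : ℝ, 0 < p → p < 1 → ∀ h, IsLink h → ∀ l L : ℝ, 0 < l → l ≤ L → ∃ K : ℝ, ∀ a c η : ℝ,
    0 ≤ a → a ≤ L → l ≤ c → c ≤ L → 0 ≤ η → η ≤ l / 4 →
      sphereLim p⁻¹ h a (c - η) ≤ sphereLim p⁻¹ h a c + K * η

/-- The formula. -/
def TwoAtomStmt : Prop :=
  ∀ β a b p : ℝ, 0 < β → a < b → 0 < p → p < 1 → ∀ μ : Measure ℝ,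
    μ = ENNReal.ofReal (1 - p) • Measure.dirac a + ENNReal.ofReal p • Measure.dirac b →
    (∃ lam, Admissible μ lam) ∧
    ∀ lam, Admissible μ lam →
      Tendsto (fun N => ∫ U, |pressure β (lam N) U - twoAtomFormula β a b p| ∂orthHaar N)
        atTop (𝓝 0)

end Vale.Agent.P166.TwoAtom
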